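import Mathlib

/-!
# P057, Q2: asymptotics of the new lower bound for `r_4(N)`
-/

namespace Vale.Agent.AP4

open Real

/-- the exponent `log_2 (9/5)` -/
lemma lam_pos : (4 : ℝ) / 5 < logb 2 (9 / 5) := by
  rw [Real.lt_logb_iff_rpow_lt (by norm_num) (by norm_num)]
  have h : ((2 : ℝ) ^ ((4 : ℝ) / 5)) ^ (5 : ℕ) < (9 / 5) ^ (5 : ℕ) := by
    rw [← Real.rpow_natCast, ← Real.rpow_mul (by norm_num)]
    norm_num
  exact lt_of_pow_lt_pow_left₀ 5 (by norm_num) h

lemma lam_lt_one : logb 2 (9 / 5) < 1 := by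
  rw [Real.logb_lt_iff_lt_rpow (by norm_num) (by norm_num)]
  norm_num

theorem const_lt : 2 * √(2 * logb 2 (9 / 5)) < 2 * √(logb 2 (24 / 7)) := by
  have h : 2 * logb 2 (9 / 5) < logb 2 (24 / 7) := by
    have e : 2 * logb 2 (9 / 5) = logb 2 ((9 / 5) ^ (2 : ℕ)) := by
      rw [Real.logb_pow]; norm_num
    rw [e]
    apply Real.logb_lt_logb (by norm_num) (by norm_num)
    norm_num
  have := Real.sqrt_lt_sqrt (by have := lam_pos; linarith) h
  linarith

theorem asym {R : ℕ → ℕ} (h : ∀ N D : ℕ, 1 ≤ N → 1 ≤ D →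
    (N : ℝ) * (5 / 9) ^ D / (64 * D * ((N : ℝ) ^ (1 / (D : ℝ))) ^ 2) ≤ R N) :
    ∀ N : ℕ, 2 ≤ N → (N : ℝ) * (2 : ℝ) ^ (-(2 * √(2 * Real.logb 2 (9 / 5))) * √(Real.logb 2 N)) /
      (400 * √(Real.logb 2 N)) ≤ R N := by
  intro N hN
  set lam := logb 2 (9 / 5) with hlam
  have hl1 : 4 / 5 < lam := lam_pos
  have hl2 : lam < 1 := lam_lt_one
  set L := logb 2 (N : ℝ) with hL
  have hN2 : (2 : ℝ) ≤ N := by exact_mod_cast hN
  have hN0 : (0 : ℝ) < N := by linarith
  have hL1 : 1 ≤ L := by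
    rw [hL, Real.le_logb_iff_rpow_le (by norm_num) hN0]
    simpa using hN2
  set s := √(2 * L / lam) with hs
  have hs2 : s ^ 2 = 2 * L / lam := Real.sq_sqrt (by positivity)
  have hs1 : 1 ≤ s := by
    rw [hs, Real.one_le_sqrt, le_div_iff₀ (by linarith)]
    linarith
  have hs0 : 0 < s := by linarith
  set D := ⌈s⌉₊ with hD
  have hD1 : 1 ≤ D := Nat.one_le_iff_ne_zero.2 (by
    have := Nat.ceil_pos.2 hs0
    omega)
  have hDs : s ≤ D := Nat.le_ceil s
  have hDs' : (D : ℝ) < s + 1 := Nat.ceil_lt_add_one hs0.le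
  have hD0 : (0 : ℝ) < D := by linarith
  refine le_trans ?_ (h N D (by omega) hD1)
  -- the main exponent
  have hrt : √(2 * lam) * √L = s * lam := by
    have e1 : s = √(2 * lam) * √L / lam := by
      rw [hs, ← Real.sqrt_mul (by positivity)]
      rw [eq_div_iff (by linarith)]
      have e2 : lam = √(lam ^ 2) := (Real.sqrt_sq (by linarith)).symm
      conv_lhs => rw [e2]
      rw [Real.sqrt_sq (by linarith : (0:ℝ) ≤ lam)]
      rw [show (√(2 * L / lam)) * lam = √(2 * L / lam) * √(lam ^ 2) by rw [← e2],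
        ← Real.sqrt_mul (by positivity)]
      congr 1
      field_simp
    rw [e1]
    field_simp
  have hN' : (N : ℝ) = 2 ^ L := by
    rw [hL, Real.rpow_logb (by norm_num) (by norm_num) hN0]
  have h95 : ((9 : ℝ) / 5) = 2 ^ lam := by
    rw [hlam, Real.rpow_logb (by norm_num) (by norm_num) (by norm_num)]
  have h59 : ((5 : ℝ) / 9) ^ D = 2 ^ (-(lam * D)) := by
    have e : (5 : ℝ) / 9 = (9 / 5)⁻¹ := by norm_num
    rw [e, inv_pow, h95, ← Real.rpow_natCast, ← Real.rpow_mul (by norm_num), ← Real.rpow_neg (by norm_num)]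
  have hroot : ((N : ℝ) ^ (1 / (D : ℝ))) ^ 2 = 2 ^ (2 * L / D) := by
    rw [hN', ← Real.rpow_mul (by norm_num), ← Real.rpow_natCast, ← Real.rpow_mul (by norm_num)]
    congr 1
    push_cast
    ring
  rw [hroot, h59]
  -- `64 D ≤ 200 √L`
  have hsL : s ≤ √(5 / 2) * √L := by
    rw [← Real.sqrt_mul (by norm_num), hs]
    apply Real.sqrt_le_sqrt
    rw [div_le_iff₀ (by linarith)]
    nlinarith
  have h52 : √(5 / 2 : ℝ) ≤ 1.5812 := by
    rw [Real.sqrt_le_left (by norm_num)]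
    norm_num
  have hsqL : 1 ≤ √L := Real.one_le_sqrt.2 hL1
  have hD64 : 64 * (D : ℝ) ≤ 200 * √L * 1.0121 := by
    have h1 : (D : ℝ) ≤ 2 * s := by linarith
    have h2 : s ≤ 1.5812 * √L := hsL.trans (by nlinarith)
    nlinarith
  have hexp1 : 2 * L / D ≤ s * lam := by
    rw [div_le_iff₀ hD0]
    have h1 : 2 * L = s ^ 2 * lam := by rw [hs2]; field_simp
    rw [h1]
    have : s * lam * s ≤ s * lam * D := by
      apply mul_le_mul_of_nonneg_left hDs
      have : 0 < lam := by linarith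
      positivity
    nlinarith
  have hexp2 : lam * D ≤ s * lam + lam := by nlinarith
  have hpow1 : (2 : ℝ) ^ (2 * L / D) ≤ 2 ^ (s * lam) :=
    Real.rpow_le_rpow_of_exponent_le (by norm_num) hexp1
  have hpow2 : (2 : ℝ) ^ (-(s * lam + lam)) ≤ 2 ^ (-(lam * D)) :=
    Real.rpow_le_rpow_of_exponent_le (by norm_num) (by linarith)
  have hpow2' : (2 : ℝ) ^ (-(s * lam + lam)) = 2 ^ (-(s * lam)) * (5 / 9) := by
    rw [neg_add, Real.rpow_add (by norm_num), Real.rpow_neg (by norm_num) lam, ← h95]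
    norm_num
  have hgoal : (2 : ℝ) ^ (-(2 * √(2 * lam)) * √L) = 2 ^ (-(s * lam)) * 2 ^ (-(s * lam)) := by
    rw [← Real.rpow_add (by norm_num)]
    congr 1
    nlinarith
  rw [hgoal]
  set X := (2 : ℝ) ^ (s * lam) with hX
  have hX0 : 0 < X := by positivity
  have hXn : (2 : ℝ) ^ (-(s * lam)) = X⁻¹ := by rw [Real.rpow_neg (by norm_num)]
  rw [hXn]
  rw [hXn] at hpow2'
  rw [hpow2'] at hpow2
  have hP2 : 0 < (2 : ℝ) ^ (-(lam * D)) := by positivity
  calc (N : ℝ) * (X⁻¹ * X⁻¹) / (400 * √L)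
      ≤ (N : ℝ) * (X⁻¹ * (5 / 9)) / (200 * √L * 1.0121 * X) := by
        rw [div_le_div_iff₀ (by positivity) (by positivity)]
        have e1 : (N : ℝ) * (X⁻¹ * X⁻¹) * (200 * √L * 1.0121 * X) =
            (N * X⁻¹ * √L) * (200 * 1.0121) := by
          field_simp
        have e2 : (N : ℝ) * (X⁻¹ * (5 / 9)) * (400 * √L) = (N * X⁻¹ * √L) * (400 * (5 / 9)) := by
          ring
        rw [e1, e2]
        apply mul_le_mul_of_nonneg_left _ (by positivity)
        norm_num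
    _ ≤ (N : ℝ) * 2 ^ (-(lam * D)) / (64 * D * 2 ^ (2 * L / D)) := by
        apply div_le_div₀ (by positivity) _ (by positivity) _
        · apply mul_le_mul_of_nonneg_left hpow2 hN0.le
        · exact mul_le_mul hD64 hpow1 (by positivity) (by positivity)

/-- The `o(1)` form. -/
theorem asym2 {R : ℕ → ℕ}
    (h : ∀ N : ℕ, 2 ≤ N → (N : ℝ) * (2 : ℝ) ^ (-(2 * √(2 * Real.logb 2 (9 / 5))) * √(Real.logb 2 N)) /
      (400 * √(Real.logb 2 N)) ≤ R N) :
    ∀ C : ℝ, 2 * √(2 * Real.logb 2 (9 / 5)) < C →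
      ∀ᶠ N : ℕ in Filter.atTop, (N : ℝ) * (2 : ℝ) ^ (-C * √(Real.logb 2 N)) ≤ R N := by
  intro C hC
  set c := 2 * √(2 * Real.logb 2 (9 / 5)) with hc
  set δ := C - c with hδ
  have hδ0 : 0 < δ := by linarith
  -- `400 x ≤ 2 ^ (δ x)` for large `x`
  have hlim : Filter.Tendsto (fun N : ℕ => √(logb 2 (N : ℝ))) Filter.atTop Filter.atTop := by
    refine Real.tendsto_sqrt_atTop.comp ?_
    exact (Real.tendsto_logb_atTop (by norm_num)).comp tendsto_natCast_atTop_atTop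
  have hx : ∀ᶠ x : ℝ in Filter.atTop, 400 * x ≤ (2 : ℝ) ^ (δ * x) := by
    have h1 := (isLittleO_pow_exp_pos_mul_atTop 1 (b := δ * Real.log 2) (by
      have := Real.log_pos (by norm_num : (1:ℝ) < 2)
      positivity)).def (c := 1 / 400) (by norm_num)
    filter_upwards [h1, Filter.eventually_ge_atTop 0] with x hx hx0
    rw [pow_one, Real.norm_of_nonneg hx0, Real.norm_of_nonneg (Real.exp_pos _).le] at hx
    rw [Real.rpow_def_of_pos (by norm_num)]
    have e : Real.log 2 * (δ * x) = δ * Real.log 2 * x := by ring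
    rw [e]
    linarith
  filter_upwards [hlim.eventually hx, Filter.eventually_ge_atTop 2] with N hN hN2
  refine le_trans ?_ (h N hN2)
  set x := √(logb 2 (N : ℝ)) with hxdef
  have hN2' : (2 : ℝ) ≤ N := by exact_mod_cast hN2
  have hx1 : 1 ≤ x := by
    rw [hxdef, Real.one_le_sqrt, Real.le_logb_iff_rpow_le (by norm_num) (by linarith)]
    simpa using hN2'
  rw [le_div_iff₀ (by positivity)]
  have e1 : -c * x = -C * x + δ * x := by rw [hδ]; ring
  rw [e1, Real.rpow_add (by norm_num)]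
  have h2 : 0 ≤ (N : ℝ) * (2 : ℝ) ^ (-C * x) := by positivity
  calc (N : ℝ) * (2 : ℝ) ^ (-C * x) * (400 * x) ≤ (N : ℝ) * (2 : ℝ) ^ (-C * x) * 2 ^ (δ * x) :=
        mul_le_mul_of_nonneg_left hN h2
    _ = _ := by ring

end Vale.Agent.AP4
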