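import Vale.Agent.AP4.Key

/-!
# P057: the discrete torus
-/

namespace Vale.Agent.AP4

open Finset

/-- label of a point of `ℤ/M` -/
def lab {M : ℕ} (x : ZMod M) : ℤ := if 7 * M < 18 * x.val ∧ 18 * x.val < 11 * M then 1 else 0

/-- centre of the component of a point of `ℤ/M` -/
noncomputable def cen {M : ℕ} (x : ZMod M) : ℝ :=
  if 6 * x.val < M then 0 else if 5 * M < 6 * x.val then 1 else 1 / 2

/-- the signed distance to the centre -/
noncomputable def yy {M : ℕ} (x : ZMod M) : ℝ := (x.val : ℝ) / M - cen x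

/-- the quadratic function -/
noncomputable def ff {M : ℕ} (x : ZMod M) : ℝ := yy x ^ 2 + (lab x : ℝ) / 16

/-- the set in `ℤ/M` -/
def InS {M : ℕ} (x : ZMod M) : Prop :=
  6 * x.val < M ∨ 5 * M < 6 * x.val ∨ (7 * M < 18 * x.val ∧ 18 * x.val < 11 * M)

theorem inS_cases {M : ℕ} [NeZero M] {x : ZMod M} (h : InS x) :
    (lab x = 0 ∧ cen x = 0 ∧ |yy x| < 1 / 6) ∨ (lab x = 0 ∧ cen x = 1 ∧ |yy x| < 1 / 6) ∨
      (lab x = 1 ∧ cen x = 1 / 2 ∧ |yy x| < 1 / 9) := by
  have hM : 0 < M := Nat.pos_of_ne_zero (NeZero.ne M)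
  have hMr : (0 : ℝ) < M := by exact_mod_cast hM
  have hv : x.val < M := ZMod.val_lt x
  have hvr : (x.val : ℝ) < M := by exact_mod_cast hv
  rcases h with h | h | h
  · left
    have h1 : lab x = 0 := by
      unfold lab
      rw [if_neg]
      omega
    have h2 : cen x = 0 := by
      unfold cen
      rw [if_pos h]
    refine ⟨h1, h2, ?_⟩
    have hr : (6 : ℝ) * x.val < M := by exact_mod_cast h
    unfold yy
    rw [h2, sub_zero, abs_of_nonneg (by positivity), div_lt_iff₀ hMr]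
    linarith
  · right
    left
    have h1 : lab x = 0 := by
      unfold lab
      rw [if_neg]
      omega
    have h2 : cen x = 1 := by
      unfold cen
      rw [if_neg (by omega), if_pos h]
    refine ⟨h1, h2, ?_⟩
    have hr : (5 : ℝ) * M < 6 * x.val := by exact_mod_cast h
    unfold yy
    rw [h2, abs_lt]
    constructor
    · rw [lt_sub_iff_add_lt, lt_div_iff₀ hMr]
      linarith
    · rw [sub_lt_iff_lt_add, div_lt_iff₀ hMr]
      linarith
  · right
    right
    have h1 : lab x = 1 := by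
      unfold lab
      rw [if_pos h]
    have h2 : cen x = 1 / 2 := by
      unfold cen
      rw [if_neg (by omega), if_neg (by omega)]
    refine ⟨h1, h2, ?_⟩
    have hr : (7 : ℝ) * M < 18 * x.val := by exact_mod_cast h.1
    have hr2 : (18 : ℝ) * x.val < 11 * M := by exact_mod_cast h.2
    unfold yy
    rw [h2, abs_lt]
    constructor
    · rw [lt_sub_iff_add_lt, lt_div_iff₀ hMr]
      linarith
    · rw [sub_lt_iff_lt_add, div_lt_iff₀ hMr]
      linarith

theorem inS_adm {M : ℕ} [NeZero M] {x : ZMod M} (h : InS x) : Adm (lab x) (yy x) := by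
  rcases inS_cases h with h | h | h
  · exact Or.inl ⟨h.1, h.2.2⟩
  · exact Or.inl ⟨h.1, h.2.2⟩
  · exact Or.inr ⟨h.1, h.2.2⟩

theorem inS_cen {M : ℕ} [NeZero M] {x : ZMod M} (h : InS x) :
    ∃ c : ℤ, cen x = (lab x : ℝ) / 2 + c := by
  rcases inS_cases h with h | h | h
  · exact ⟨0, by rw [h.1, h.2.1]; norm_num⟩
  · exact ⟨1, by rw [h.1, h.2.1]; norm_num⟩
  · exact ⟨0, by rw [h.1, h.2.1]; norm_num⟩

theorem ff_nonneg {M : ℕ} [NeZero M] {x : ZMod M} (h : InS x) : 0 ≤ ff x := by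
  unfold ff
  rcases inS_cases h with h | h | h <;> rw [h.1] <;> positivity

theorem ff_le {M : ℕ} [NeZero M] {x : ZMod M} (h : InS x) : ff x ≤ 1 / 8 := by
  unfold ff
  have h1 := abs_lt.1 (inS_adm h).lt
  have h2 : yy x ^ 2 ≤ 1 / 36 := by nlinarith [h1.1, h1.2]
  rcases inS_cases h with h | h | h <;> rw [h.1] <;> push_cast <;> linarith

theorem val_add_div {M : ℕ} [NeZero M] (x g : ZMod M) :
    ∃ c : ℤ, ((x + g).val : ℝ) / M = (x.val : ℝ) / M + (g.val : ℝ) / M + c := by
  have hMr : (M : ℝ) ≠ 0 := by exact_mod_cast (NeZero.ne M)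
  have h1 : (x + g).val + M * ((x.val + g.val) / M) = x.val + g.val := by
    rw [ZMod.val_add]
    exact Nat.mod_add_div _ _
  generalize (x.val + g.val) / M = k at h1
  have h2 : ((x + g).val : ℝ) + M * (k : ℝ) = x.val + g.val := by
    exact_mod_cast h1
  refine ⟨-(k : ℤ), ?_⟩
  push_cast
  field_simp
  linarith

theorem step {M : ℕ} [NeZero M] {x g : ZMod M} (hx : InS x) (hg : InS (x + g)) :
    ∃ a : ℤ, yy (x + g) + (lab (x + g) : ℝ) / 2 = yy x + (lab x : ℝ) / 2 + (g.val : ℝ) / M + a := by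
  obtain ⟨c1, h1⟩ := inS_cen hx
  obtain ⟨c2, h2⟩ := inS_cen hg
  obtain ⟨c3, h3⟩ := val_add_div x g
  refine ⟨c3 - c2 + c1, ?_⟩
  unfold yy
  rw [h1, h2, h3]
  push_cast
  ring

theorem ap_key {M : ℕ} [NeZero M] {x g : ZMod M} (h0 : InS x) (h1 : InS (x + g))
    (h2 : InS (x + g + g)) (h3 : InS (x + g + g + g)) :
    ∃ m : ℤ, (2 * ((g.val : ℝ) / M) - m) ^ 2 ≤
      4 * (ff x - ff (x + g) - ff (x + g + g) + ff (x + g + g + g)) := by
  obtain ⟨a, ha⟩ := step h0 h1
  obtain ⟨b, hb⟩ := step h1 h2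
  obtain ⟨c, hc⟩ := step h2 h3
  exact key_real (inS_adm h0) (inS_adm h1) (inS_adm h2) (inS_adm h3) ha hb hc

open Classical in
/-- the finite set `S` -/
noncomputable def S1 (M : ℕ) [NeZero M] : Finset (ZMod M) := univ.filter fun x => InS x

open Classical in
/-- the finite set of bad differences -/
noncomputable def B1 (M : ℕ) [NeZero M] (ρ : ℝ) : Finset (ZMod M) :=
  univ.filter fun g => ∃ m : ℤ, (2 * ((g.val : ℝ) / M) - m) ^ 2 ≤ ρ ^ 2

theorem card_S1 (M : ℕ) [NeZero M] : (5 / 9 : ℝ) * M - 19 ≤ ((S1 M).card : ℝ) := by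
  classical
  set q := M / 18 with hq
  have hq1 : 18 * q ≤ M := Nat.mul_div_le M 18
  have hq2 : M < 18 * q + 18 := by omega
  have hV : ((range (3 * q)) ∪ (Ico (7 * q + 8) (11 * q)) ∪ (Ico (M - 3 * q + 1) M)).card =
      3 * q + (11 * q - (7 * q + 8)) + (M - (M - 3 * q + 1)) := by
    rw [card_union_of_disjoint, card_union_of_disjoint, card_range, Nat.card_Ico, Nat.card_Ico]
    · rw [Finset.disjoint_left]
      intro v h1 h2
      rw [mem_range] at h1
      rw [mem_Ico] at h2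
      omega
    · rw [Finset.disjoint_left]
      intro v h1 h2
      rw [mem_union, mem_range, mem_Ico] at h1
      rw [mem_Ico] at h2
      omega
  have hle : ((range (3 * q)) ∪ (Ico (7 * q + 8) (11 * q)) ∪ (Ico (M - 3 * q + 1) M)).card ≤
      (S1 M).card := by
    refine card_le_card_of_injOn (fun v : ℕ => (v : ZMod M)) ?_ ?_
    · intro v hv
      rw [mem_coe, mem_union, mem_union, mem_range, mem_Ico, mem_Ico] at hv
      have hvM : v < M := by omega
      rw [mem_coe, S1, mem_filter]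
      refine ⟨mem_univ _, ?_⟩
      unfold InS
      rw [ZMod.val_natCast_of_lt hvM]
      omega
    · intro v hv w hw hvw
      rw [mem_coe, mem_union, mem_union, mem_range, mem_Ico, mem_Ico] at hv hw
      have hvM : v < M := by omega
      have hwM : w < M := by omega
      have h1 := congrArg ZMod.val hvw
      simp only at h1
      rwa [ZMod.val_natCast_of_lt hvM, ZMod.val_natCast_of_lt hwM] at h1
  have h3 : 10 * q ≤ (S1 M).card + 9 := by omega
  have h4 : (10 : ℝ) * q ≤ (S1 M).card + 9 := by exact_mod_cast h3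
  have h5 : (M : ℝ) < 18 * q + 18 := by exact_mod_cast hq2
  linarith

theorem card_B1 (M : ℕ) [Fact M.Prime] (hM : 2 < M) {ρ : ℝ} (hρ : 0 ≤ ρ) :
    ((B1 M ρ).card : ℝ) ≤ 2 * (ρ * M) + 1 := by
  classical
  have hMr : (0 : ℝ) < M := by exact_mod_cast (by omega : 0 < M)
  have h2 : (2 : ZMod M) ≠ 0 := by
    intro h
    have h1 : ((2 : ℕ) : ZMod M) = 0 := by exact_mod_cast h
    rw [ZMod.natCast_eq_zero_iff] at h1
    exact absurd (Nat.le_of_dvd (by norm_num) h1) (by omega)
  set L : ℕ := ⌊ρ * M⌋₊ with hL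
  have hsub : B1 M ρ ⊆ (Icc (-(L : ℤ)) L).image (fun r : ℤ => (2 : ZMod M)⁻¹ * (r : ZMod M)) := by
    intro g hg
    rw [B1, mem_filter] at hg
    obtain ⟨-, m, hm⟩ := hg
    rw [mem_image]
    refine ⟨2 * (g.val : ℤ) - m * M, ?_, ?_⟩
    · have h3 : |2 * ((g.val : ℝ) / M) - m| ≤ ρ := abs_le_of_sq_le_sq hm hρ
      have h4 : |(2 * (g.val : ℝ) - m * M)| ≤ ρ * M := by
        have h5 : (2 * (g.val : ℝ) - m * M) = (2 * ((g.val : ℝ) / M) - m) * M := by
          field_simp
        rw [h5, abs_mul, abs_of_pos hMr]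
        exact mul_le_mul_of_nonneg_right h3 hMr.le
      have h6 : (((2 * (g.val : ℤ) - m * M).natAbs : ℕ) : ℝ) ≤ ρ * M := by
        have h7 : (((2 * (g.val : ℤ) - m * M).natAbs : ℕ) : ℝ) = |(2 * (g.val : ℝ) - m * M)| := by
          rw [Nat.cast_natAbs]
          push_cast
          rfl
        rw [h7]
        exact h4
      have h8 : (2 * (g.val : ℤ) - m * M).natAbs ≤ L := Nat.le_floor h6
      rw [mem_Icc]
      omega
    · have h9 : ((2 * (g.val : ℤ) - m * M : ℤ) : ZMod M) = 2 * g := by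
        push_cast
        rw [ZMod.natCast_zmod_val, ZMod.natCast_self]
        ring
      show (2 : ZMod M)⁻¹ * ((2 * (g.val : ℤ) - m * M : ℤ) : ZMod M) = g
      rw [h9, ← mul_assoc, inv_mul_cancel₀ h2, one_mul]
  have h10 : (B1 M ρ).card ≤ 2 * L + 1 := by
    refine (card_le_card hsub).trans (card_image_le.trans ?_)
    rw [Int.card_Icc]
    omega
  have h11 : (L : ℝ) ≤ ρ * M := Nat.floor_le (by positivity)
  have h12 : ((B1 M ρ).card : ℝ) ≤ 2 * L + 1 := by exact_mod_cast h10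
  linarith

end Vale.Agent.AP4
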