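import Vale.Agent.AP4.Defs
import Vale.Agent.AP4.Disc

/-!
# P057: progressions, the averaging argument
-/

namespace Vale.Agent.AP4

open Finset

theorem le_rAP {k N : ℕ} {A : Finset ℕ} (h : A ⊆ Icc 1 N) (h2 : ¬ HasAP k A) :
    A.card ≤ rAP k N := by
  classical
  unfold rAP
  refine Finset.le_sup (f := card) ?_
  rw [mem_filter, mem_powerset]
  exact ⟨h, h2⟩

theorem averaging {M D N : ℕ} [Fact M.Prime] (hNM : N < M)
    (T B : Finset (Fin D → ZMod M))
    (hTB : ∀ x g, x ∈ T → x + g ∈ T → x + g + g ∈ T → x + g + g + g ∈ T → g ∈ B)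
    (hB : N * B.card < M ^ D) :
    ∃ A : Finset ℕ, A ⊆ Icc 1 N ∧ ¬ HasAP 4 A ∧ N * T.card ≤ A.card * M ^ D := by
  classical
  have hG : Fintype.card (Fin D → ZMod M) = M ^ D := by
    rw [Fintype.card_fun, ZMod.card, Fintype.card_fin]
  -- choice of `θ`
  obtain ⟨θ, hθ⟩ : ∃ θ : Fin D → ZMod M, ∀ n ∈ Icc 1 N, (fun j => (n : ZMod M) * θ j) ∉ B := by
    by_contra hcon
    push Not at hcon
    have h1 : (univ : Finset (Fin D → ZMod M)) ⊆
        (Icc 1 N).biUnion fun n => univ.filter fun θ => (fun j => (n : ZMod M) * θ j) ∈ B := by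
      intro θ _
      obtain ⟨n, hn, hn2⟩ := hcon θ
      rw [mem_biUnion]
      exact ⟨n, hn, by rw [mem_filter]; exact ⟨mem_univ _, hn2⟩⟩
    have h2 : ∀ n ∈ Icc 1 N,
        (univ.filter fun θ : Fin D → ZMod M => (fun j => (n : ZMod M) * θ j) ∈ B).card ≤
          B.card := by
      intro n hn
      rw [mem_Icc] at hn
      refine card_le_card_of_injOn (fun θ j => (n : ZMod M) * θ j) ?_ ?_
      · intro θ hθ
        rw [mem_coe, mem_filter] at hθ
        exact hθ.2
      · intro θ _ θ' _ h
        have hn0 : (n : ZMod M) ≠ 0 := by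
          intro h0
          rw [ZMod.natCast_eq_zero_iff] at h0
          exact absurd (Nat.le_of_dvd (by omega) h0) (by omega)
        funext j
        exact mul_left_cancel₀ hn0 (congrFun h j)
    have h3 := (card_le_card h1).trans (card_biUnion_le.trans (sum_le_card_nsmul _ _ _ h2))
    rw [card_univ, hG, Nat.card_Icc, smul_eq_mul] at h3
    have h4 : N + 1 - 1 = N := by omega
    rw [h4] at h3
    omega
  -- choice of `α`
  have hsum : ∑ α : Fin D → ZMod M,
      ((Icc 1 N).filter fun n : ℕ => (α + fun j => (n : ZMod M) * θ j) ∈ T).card =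
        N * T.card := by
    have h1 : ∀ α : Fin D → ZMod M,
        ((Icc 1 N).filter fun n : ℕ => (α + fun j => (n : ZMod M) * θ j) ∈ T).card =
          ∑ n ∈ Icc 1 N, if (α + fun j => (n : ZMod M) * θ j) ∈ T then 1 else 0 := by
      intro α
      rw [card_filter]
    rw [sum_congr rfl fun α _ => h1 α, sum_comm]
    have h2 : ∀ n ∈ Icc 1 N, (∑ α : Fin D → ZMod M,
        if (α + fun j => (n : ZMod M) * θ j) ∈ T then 1 else 0) = T.card := by
      intro n _
      rw [← card_filter]
      refine card_bij (fun α _ => α + fun j => (n : ZMod M) * θ j) ?_ ?_ ?_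
      · intro α hα
        rw [mem_filter] at hα
        exact hα.2
      · intro α _ α' _ h
        exact add_right_cancel h
      · intro x hx
        refine ⟨x - fun j => (n : ZMod M) * θ j, ?_, ?_⟩
        · rw [mem_filter]
          exact ⟨mem_univ _, by rw [sub_add_cancel]; exact hx⟩
        · rw [sub_add_cancel]
    rw [sum_congr rfl h2, sum_const, Nat.card_Icc, smul_eq_mul]
    congr 1
  obtain ⟨α, hα⟩ : ∃ α : Fin D → ZMod M, N * T.card ≤
      ((Icc 1 N).filter fun n : ℕ => (α + fun j => (n : ZMod M) * θ j) ∈ T).card * M ^ D := by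
    by_contra hcon
    push Not at hcon
    have h1 : ∑ α : Fin D → ZMod M,
        ((Icc 1 N).filter fun n : ℕ => (α + fun j => (n : ZMod M) * θ j) ∈ T).card * M ^ D <
          ∑ _α : Fin D → ZMod M, N * T.card := by
      refine sum_lt_sum_of_nonempty ⟨0, mem_univ _⟩ fun α _ => hcon α
    rw [← sum_mul, hsum, sum_const, card_univ, hG, smul_eq_mul, mul_comm] at h1
    exact lt_irrefl _ h1
  refine ⟨(Icc 1 N).filter fun n : ℕ => (α + fun j => (n : ZMod M) * θ j) ∈ T,
    filter_subset _ _, ?_, hα⟩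
  rintro ⟨a, d, hd, hap⟩
  have h0 := (mem_filter.1 (hap 0 (by norm_num))).2
  have h1 := (mem_filter.1 (hap 1 (by norm_num))).2
  have h2 := (mem_filter.1 (hap 2 (by norm_num))).2
  have h3 := (mem_filter.1 (hap 3 (by norm_num)))
  have hdN : d ∈ Icc 1 N := by
    have := mem_Icc.1 h3.1
    rw [mem_Icc]
    omega
  refine hθ d hdN (hTB (α + fun j => (a : ZMod M) * θ j) _ ?_ ?_ ?_ ?_)
  · convert h0 using 3 with j
    simp
  · convert h1 using 1
    funext j
    simp only [Pi.add_apply]
    push_cast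
    ring
  · convert h2 using 1
    funext j
    simp only [Pi.add_apply]
    push_cast
    ring
  · convert h3.2 using 1
    funext j
    simp only [Pi.add_apply]
    push_cast
    ring

end Vale.Agent.AP4
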