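import Mathlib

/-!
# P057: progressions and `r_k(N)`
-/

namespace Vale.Agent.AP4

open Finset

/-- `A` contains a `k`-term arithmetic progression with positive difference -/
def HasAP (k : ℕ) (A : Finset ℕ) : Prop :=
  ∃ a d : ℕ, 0 < d ∧ ∀ i < k, a + i * d ∈ A

open Classical in
/-- `r_k(N)`: the largest cardinality of a subset of `{1, …, N}` without `k`-term progression -/
noncomputable def rAP (k N : ℕ) : ℕ :=
  ((Icc 1 N).powerset.filter fun A => ¬ HasAP k A).sup card

end Vale.Agent.AP4
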