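import Mathlib

/-!
# P057: the one-dimensional inequality behind the lower bound for `r_4(N)`
-/

namespace Vale.Agent.AP4

/-- a point of the set: label `0` and `|y| < 1/6`, or label `1` and `|y| < 1/9` -/
def Adm (e : ℤ) (y : ℝ) : Prop := e = 0 ∧ |y| < 1 / 6 ∨ e = 1 ∧ |y| < 1 / 9

theorem Adm.lt {e : ℤ} {y : ℝ} (h : Adm e y) : |y| < 1 / 6 := by
  rcases h with h | h
  · exact h.2
  · linarith [h.2]

theorem second {e0 e1 e2 s k : ℤ} {y0 y1 y2 : ℝ} (h0 : Adm e0 y0) (h1 : Adm e1 y1)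
    (h2 : Adm e2 y2) (hs : 2 * (y0 - 2 * y1 + y2) = s) (hk : s = 2 * k - e0 - e2) :
    (s = 0 ∧ e0 = e2) ∨ ((s = 1 ∨ s = -1) ∧ e0 + e2 = 1 ∧ e1 = 0) := by
  have b0 := abs_lt.1 h0.lt
  have b1 := abs_lt.1 h1.lt
  have b2 := abs_lt.1 h2.lt
  have hs1 : (s : ℝ) < 2 := by linarith [b0.1, b0.2, b1.1, b1.2, b2.1, b2.2]
  have hs2 : (-2 : ℝ) < s := by linarith [b0.1, b0.2, b1.1, b1.2, b2.1, b2.2]
  have hs1' : s < 2 := by exact_mod_cast hs1
  have hs2' : -2 < s := by exact_mod_cast hs2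
  have hs3 : s = 0 ∨ s = 1 ∨ s = -1 := by omega
  rcases hs3 with hs3 | hs3
  · left
    refine ⟨hs3, ?_⟩
    rcases h0 with h0 | h0 <;> rcases h2 with h2 | h2 <;> omega
  · right
    have h02 : e0 + e2 = 1 := by
      rcases h0 with h0 | h0 <;> rcases h2 with h2 | h2 <;> omega
    refine ⟨hs3, h02, ?_⟩
    rcases h1 with h1 | h1
    · exact h1.1
    · exfalso
      have c1 := abs_lt.1 h1.2
      have h4 : |y0| + |y2| < 5 / 18 := by
        rcases h0 with h0 | h0 <;> rcases h2 with h2 | h2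
        · exfalso; omega
        · linarith [h0.2, h2.2]
        · linarith [h0.2, h2.2]
        · exfalso; omega
      have c0 := abs_le.1 (le_refl |y0|)
      have c2 := abs_le.1 (le_refl |y2|)
      rcases hs3 with hs3 | hs3
      · rw [hs3] at hs
        push_cast at hs
        linarith [c0.1, c0.2, c2.1, c2.2, c1.1, c1.2]
      · rw [hs3] at hs
        push_cast at hs
        linarith [c0.1, c0.2, c2.1, c2.2, c1.1, c1.2]

/-- The key inequality: for a four-term progression modulo `1` inside the set, the combination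
`f(x_0) - f(x_1) - f(x_2) + f(x_3)` of `f = y^2 + e/16` dominates the square of the distance of
twice the difference to the integers. -/
theorem key_real {y0 y1 y2 y3 δ : ℝ} {e0 e1 e2 e3 a b c : ℤ}
    (h0 : Adm e0 y0) (h1 : Adm e1 y1) (h2 : Adm e2 y2) (h3 : Adm e3 y3)
    (h01 : y1 + e1 / 2 = y0 + e0 / 2 + δ + a)
    (h12 : y2 + e2 / 2 = y1 + e1 / 2 + δ + b)
    (h23 : y3 + e3 / 2 = y2 + e2 / 2 + δ + c) :
    ∃ m : ℤ, (2 * δ - m) ^ 2 ≤
      4 * ((y0 ^ 2 + e0 / 16) - (y1 ^ 2 + e1 / 16) - (y2 ^ 2 + e2 / 16) + (y3 ^ 2 + e3 / 16)) := by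
  have hs : 2 * (y0 - 2 * y1 + y2) = ((2 * (e1 + b - a) - e0 - e2 : ℤ) : ℝ) := by
    push_cast
    linarith
  have ht : 2 * (y1 - 2 * y2 + y3) = ((2 * (e2 + c - b) - e1 - e3 : ℤ) : ℝ) := by
    push_cast
    linarith
  have b0 := abs_lt.1 h0.lt
  have b1 := abs_lt.1 h1.lt
  have b2 := abs_lt.1 h2.lt
  have b3 := abs_lt.1 h3.lt
  rcases second h0 h1 h2 hs rfl with ⟨s1, s2⟩ | ⟨s1, s2, s3⟩
  · rcases second h1 h2 h3 ht rfl with ⟨t1, t2⟩ | ⟨t1, t2, t3⟩
    · refine ⟨(e1 - e0) - 2 * a, ?_⟩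
      rw [s1] at hs
      rw [t1] at ht
      push_cast at hs ht ⊢
      have g2 : y2 = 2 * y1 - y0 := by linarith
      have g3 : y3 = 3 * y1 - 2 * y0 := by linarith
      have gd : 2 * δ - ((e1 : ℝ) - e0 - 2 * a) = 2 * (y1 - y0) := by linarith
      rw [gd, g2, g3, ← s2, ← t2]
      nlinarith [sq_nonneg (y1 - y0)]
    · exfalso
      rw [s1] at hs
      push_cast at hs
      rcases t1 with t1 | t1
      · rw [t1] at ht
        push_cast at ht
        linarith [b0.1, b0.2, b1.1, b1.2, b2.1, b2.2, b3.1, b3.2]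
      · rw [t1] at ht
        push_cast at ht
        linarith [b0.1, b0.2, b1.1, b1.2, b2.1, b2.2, b3.1, b3.2]
  · rcases second h1 h2 h3 ht rfl with ⟨t1, t2⟩ | ⟨t1, t2, t3⟩
    · exfalso
      rw [t1] at ht
      push_cast at ht
      rcases s1 with s1 | s1
      · rw [s1] at hs
        push_cast at hs
        linarith [b0.1, b0.2, b1.1, b1.2, b2.1, b2.2, b3.1, b3.2]
      · rw [s1] at hs
        push_cast at hs
        linarith [b0.1, b0.2, b1.1, b1.2, b2.1, b2.2, b3.1, b3.2]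
    · refine ⟨round (2 * δ), ?_⟩
      have hr := abs_le.1 (abs_sub_round (2 * δ))
      have hr2 : (2 * δ - (round (2 * δ) : ℤ)) ^ 2 ≤ 1 / 4 := by
        nlinarith [hr.1, hr.2]
      refine hr2.trans ?_
      have he0 : e0 = 1 := by omega
      have he3 : e3 = 1 := by omega
      rw [he0, s3, t3, he3]
      push_cast
      rcases s1 with s1 | s1 <;> rcases t1 with t1 | t1
      · exfalso
        rw [s1] at hs
        rw [t1] at ht
        push_cast at hs ht
        linarith [b0.1, b0.2, b1.1, b1.2, b2.1, b2.2, b3.1, b3.2]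
      · rw [s1] at hs
        rw [t1] at ht
        push_cast at hs ht
        have g0 : y0 = 2 * y1 - y2 + 1 / 2 := by linarith
        have g3 : y3 = 2 * y2 - y1 - 1 / 2 := by linarith
        rw [g0, g3]
        nlinarith [sq_nonneg (y2 - y1 - 3 / 8)]
      · rw [s1] at hs
        rw [t1] at ht
        push_cast at hs ht
        have g0 : y0 = 2 * y1 - y2 - 1 / 2 := by linarith
        have g3 : y3 = 2 * y2 - y1 + 1 / 2 := by linarith
        rw [g0, g3]
        nlinarith [sq_nonneg (y2 - y1 + 3 / 8)]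
      · exfalso
        rw [s1] at hs
        rw [t1] at ht
        push_cast at hs ht
        linarith [b0.1, b0.2, b1.1, b1.2, b2.1, b2.2, b3.1, b3.2]

end Vale.Agent.AP4
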