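import Vale.Agent.AP4.Comb

/-!
# P057: the finite form of the lower bound for `r_4(N)`
-/

namespace Vale.Agent.AP4

open Finset

/-- the sum of the one-dimensional functions -/
noncomputable def FF {M D : ℕ} (x : Fin D → ZMod M) : ℝ := ∑ j, ff (x j)

theorem level_key {M D : ℕ} [NeZero M] {ρ : ℝ} {h : ℕ} (hρ : 0 < ρ)
    {x g : Fin D → ZMod M}
    (H : ∀ z ∈ ({x, x + g, x + g + g, x + g + g + g} : Set (Fin D → ZMod M)),
      (∀ j, InS (z j)) ∧ ⌊FF z / (ρ ^ 2 / 8)⌋₊ = h) :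
    ∀ j, g j ∈ B1 M ρ := by
  classical
  have hη : 0 < ρ ^ 2 / 8 := by positivity
  have hb : ∀ z ∈ ({x, x + g, x + g + g, x + g + g + g} : Set (Fin D → ZMod M)),
      h * (ρ ^ 2 / 8) ≤ FF z ∧ FF z < (h + 1) * (ρ ^ 2 / 8) := by
    intro z hz
    obtain ⟨h1, h2⟩ := H z hz
    have h3 : 0 ≤ FF z / (ρ ^ 2 / 8) :=
      div_nonneg (sum_nonneg fun j _ => ff_nonneg (h1 j)) hη.le
    rw [Nat.floor_eq_iff h3] at h2
    exact ⟨(le_div_iff₀ hη).1 h2.1, (div_lt_iff₀ hη).1 h2.2⟩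
  have m0 : x ∈ ({x, x + g, x + g + g, x + g + g + g} : Set (Fin D → ZMod M)) := by simp
  have m1 : x + g ∈ ({x, x + g, x + g + g, x + g + g + g} : Set (Fin D → ZMod M)) := by simp
  have m2 : x + g + g ∈ ({x, x + g, x + g + g, x + g + g + g} : Set (Fin D → ZMod M)) := by simp
  have m3 : x + g + g + g ∈ ({x, x + g, x + g + g, x + g + g + g} : Set (Fin D → ZMod M)) := by
    simp
  have key : ∀ j, ∃ m : ℤ, (2 * (((g j).val : ℝ) / M) - m) ^ 2 ≤
      4 * (ff (x j) - ff ((x + g) j) - ff ((x + g + g) j) + ff ((x + g + g + g) j)) := by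
    intro j
    exact ap_key ((H _ m0).1 j) ((H _ m1).1 j) ((H _ m2).1 j) ((H _ m3).1 j)
  have hnn : ∀ j ∈ (univ : Finset (Fin D)),
      0 ≤ ff (x j) - ff ((x + g) j) - ff ((x + g + g) j) + ff ((x + g + g + g) j) := by
    intro j _
    obtain ⟨m, hm⟩ := key j
    nlinarith [sq_nonneg (2 * (((g j).val : ℝ) / M) - m)]
  have hsum : ∑ j, (ff (x j) - ff ((x + g) j) - ff ((x + g + g) j) + ff ((x + g + g + g) j)) =
      FF x - FF (x + g) - FF (x + g + g) + FF (x + g + g + g) := by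
    unfold FF
    rw [sum_add_distrib, sum_sub_distrib, sum_sub_distrib]
  intro j
  obtain ⟨m, hm⟩ := key j
  have h4 := single_le_sum hnn (mem_univ j)
  rw [hsum] at h4
  rw [B1, mem_filter]
  refine ⟨mem_univ _, m, hm.trans ?_⟩
  linarith [(hb _ m0).2, (hb _ m1).1, (hb _ m2).1, (hb _ m3).2]

theorem finite_form (N D : ℕ) (hN : 1 ≤ N) (hD : 1 ≤ D) :
    (N : ℝ) * (5 / 9) ^ D / (64 * D * ((N : ℝ) ^ (1 / (D : ℝ))) ^ 2) ≤ rAP 4 N := by
  classical
  have hNr : (1 : ℝ) ≤ N := by exact_mod_cast hN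
  have hDr : (1 : ℝ) ≤ D := by exact_mod_cast hD
  obtain ⟨R, hR⟩ : ∃ R : ℝ, R = (N : ℝ) ^ (1 / (D : ℝ)) := ⟨_, rfl⟩
  rw [← hR]
  have hR1 : 1 ≤ R := by
    rw [hR]
    exact Real.one_le_rpow hNr (by positivity)
  have hRD : R ^ D = N := by
    rw [hR, ← Real.rpow_natCast, ← Real.rpow_mul (by positivity), one_div,
      inv_mul_cancel₀ (by positivity), Real.rpow_one]
  have hRN : R ≤ N := by
    rw [← hRD]
    exact le_self_pow₀ hR1 (by omega)
  have hR0 : 0 < R := by linarith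
  obtain ⟨ρ, hρ⟩ : ∃ ρ : ℝ, ρ = 1 / (4 * R) := ⟨_, rfl⟩
  have hρ0 : 0 < ρ := by rw [hρ]; positivity
  have hρR : 4 * ρ * R = 1 := by rw [hρ]; field_simp
  obtain ⟨M, hKM, hMp⟩ := Nat.exists_infinite_primes (4 * N + 70 * D + 3)
  have : Fact M.Prime := ⟨hMp⟩
  have hKMr : (4 * N + 70 * D + 3 : ℝ) ≤ M := by exact_mod_cast hKM
  have hM0 : (0 : ℝ) < M := by linarith
  -- bad set
  set B : Finset (Fin D → ZMod M) := Fintype.piFinset fun _ : Fin D => B1 M ρ with hBdef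
  have hBcard : B.card = (B1 M ρ).card ^ D := by
    rw [hBdef, Fintype.card_piFinset_const]
  have hρM : 1 ≤ ρ * M := by
    have h1 : 4 * R ≤ M := by linarith
    nlinarith
  have hB : N * B.card < M ^ D := by
    have h1 : ((B1 M ρ).card : ℝ) ≤ 3 * (ρ * M) :=
      (card_B1 M (by omega) hρ0.le).trans (by linarith)
    have h2 : ((B1 M ρ).card : ℝ) ^ D ≤ (3 * (ρ * M)) ^ D :=
      pow_le_pow_left₀ (by positivity) h1 D
    have h3 : (N : ℝ) * (3 * (ρ * M)) ^ D = (3 / 4) ^ D * M ^ D := by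
      rw [← hRD, ← mul_pow, ← mul_pow]
      congr 1
      have : R * (3 * (ρ * M)) = 3 / 4 * (4 * ρ * R) * M := by ring
      rw [this, hρR]
      ring
    have h4 : ((3 : ℝ) / 4) ^ D < 1 := pow_lt_one₀ (by norm_num) (by norm_num) (by omega)
    have h5 : ((N * B.card : ℕ) : ℝ) < ((M ^ D : ℕ) : ℝ) := by
      rw [hBcard]
      push_cast
      calc (N : ℝ) * ((B1 M ρ).card : ℝ) ^ D ≤ (N : ℝ) * (3 * (ρ * M)) ^ D :=
            mul_le_mul_of_nonneg_left h2 (by positivity)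
        _ = (3 / 4) ^ D * M ^ D := h3
        _ < 1 * M ^ D := mul_lt_mul_of_pos_right h4 (by positivity)
        _ = M ^ D := one_mul _
    exact_mod_cast h5
  -- the level sets
  set PS : Finset (Fin D → ZMod M) := Fintype.piFinset fun _ : Fin D => S1 M with hPS
  have hPScard : PS.card = (S1 M).card ^ D := by
    rw [hPS, Fintype.card_piFinset_const]
  have hmemPS : ∀ x ∈ PS, ∀ j, InS (x j) := by
    intro x hx j
    rw [hPS, Fintype.mem_piFinset] at hx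
    have := hx j
    rw [S1, mem_filter] at this
    exact this.2
  set W : ℕ := ⌊(D : ℝ) / ρ ^ 2⌋₊ + 1 with hW
  have hη : 0 < ρ ^ 2 / 8 := by positivity
  have hmaps : ∀ x ∈ PS, ⌊FF x / (ρ ^ 2 / 8)⌋₊ ∈ range W := by
    intro x hx
    rw [mem_range, hW, Nat.lt_succ_iff]
    refine Nat.floor_le_floor ?_
    have h1 : FF x ≤ D * (1 / 8) := by
      unfold FF
      calc ∑ j, ff (x j) ≤ ∑ _j : Fin D, (1 / 8 : ℝ) :=
            sum_le_sum fun j _ => ff_le (hmemPS x hx j)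
        _ = D * (1 / 8) := by rw [sum_const, card_univ, Fintype.card_fin, nsmul_eq_mul]
    rw [div_le_div_iff₀ hη (by positivity)]
    have h2 : FF x * ρ ^ 2 ≤ D * (1 / 8) * ρ ^ 2 :=
      mul_le_mul_of_nonneg_right h1 (by positivity)
    linarith
  have hW0 : (0 : ℝ) < W := by
    rw [hW]
    positivity
  obtain ⟨h, -, hcard⟩ := exists_le_card_fiber_of_nsmul_le_card_of_maps_to (s := PS)
    (t := range W) (f := fun x => ⌊FF x / (ρ ^ 2 / 8)⌋₊) (b := (PS.card : ℝ) / W) hmaps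
    ⟨0, by rw [mem_range]; omega⟩ (by
      rw [card_range, nsmul_eq_mul, mul_div_cancel₀ _ hW0.ne'])
  set T : Finset (Fin D → ZMod M) := PS.filter fun x => ⌊FF x / (ρ ^ 2 / 8)⌋₊ = h with hT
  have hTB : ∀ x g, x ∈ T → x + g ∈ T → x + g + g ∈ T → x + g + g + g ∈ T → g ∈ B := by
    intro x g h0 h1 h2 h3
    rw [hT, mem_filter] at h0 h1 h2 h3
    rw [hBdef, Fintype.mem_piFinset]
    refine level_key (x := x) (h := h) hρ0 ?_
    intro z hz
    simp only [Set.mem_insert_iff, Set.mem_singleton_iff] at hz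
    rcases hz with rfl | rfl | rfl | rfl
    · exact ⟨hmemPS _ h0.1, h0.2⟩
    · exact ⟨hmemPS _ h1.1, h1.2⟩
    · exact ⟨hmemPS _ h2.1, h2.2⟩
    · exact ⟨hmemPS _ h3.1, h3.2⟩
  obtain ⟨A, hA1, hA2, hA3⟩ := averaging (by omega) T B hTB hB
  have hA4 : (A.card : ℝ) ≤ rAP 4 N := by exact_mod_cast le_rAP hA1 hA2
  refine le_trans ?_ hA4
  have hA5 : (N : ℝ) * T.card ≤ A.card * (M : ℝ) ^ D := by exact_mod_cast hA3
  -- lower bound for `|S|^D`
  have hS1 : (5 / 9 : ℝ) * M * (1 + -(35 / M)) ≤ (S1 M).card := by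
    refine le_trans ?_ (card_S1 M)
    have : (5 / 9 : ℝ) * M * (1 + -(35 / M)) = 5 / 9 * M - 175 / 9 := by
      field_simp
      ring
    rw [this]
    linarith
  have h35 : (35 : ℝ) / M ≤ 1 / 2 := by
    rw [div_le_div_iff₀ hM0 (by norm_num)]
    linarith
  have hbern : (1 / 2 : ℝ) ≤ (1 + -(35 / M)) ^ D := by
    refine le_trans ?_ (one_add_mul_le_pow (by linarith) D)
    have : (D : ℝ) * (35 / M) ≤ 1 / 2 := by
      rw [← mul_div_assoc, div_le_div_iff₀ hM0 (by norm_num)]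
      linarith
    linarith
  have hPSr : (1 / 2 : ℝ) * ((5 / 9) ^ D * M ^ D) ≤ PS.card := by
    rw [hPScard]
    push_cast
    calc (1 / 2 : ℝ) * ((5 / 9) ^ D * M ^ D) ≤ (1 + -(35 / M)) ^ D * ((5 / 9) ^ D * M ^ D) :=
          mul_le_mul_of_nonneg_right hbern (by positivity)
      _ = (5 / 9 * M * (1 + -(35 / M))) ^ D := by
          rw [mul_pow, mul_pow]
          ring
      _ ≤ ((S1 M).card : ℝ) ^ D := by
          refine pow_le_pow_left₀ ?_ hS1 D
          have : (0 : ℝ) ≤ 1 + -(35 / M) := by linarith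
          positivity
  have hWle : (W : ℝ) ≤ 32 * D * R ^ 2 := by
    have h1 : (W : ℝ) ≤ D / ρ ^ 2 + 1 := by
      rw [hW]
      push_cast
      linarith [Nat.floor_le (show (0 : ℝ) ≤ (D : ℝ) / ρ ^ 2 by positivity)]
    have h2 : (D : ℝ) / ρ ^ 2 = 16 * D * R ^ 2 := by
      rw [hρ]
      field_simp
      ring
    have h3 : (1 : ℝ) ≤ D * R ^ 2 := by nlinarith
    linarith
  have hTr : (1 / 2 : ℝ) * ((5 / 9) ^ D * M ^ D) / (32 * D * R ^ 2) ≤ T.card := by
    refine le_trans ?_ hcard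
    calc (1 / 2 : ℝ) * ((5 / 9) ^ D * M ^ D) / (32 * D * R ^ 2) ≤
          (PS.card : ℝ) / (32 * D * R ^ 2) := div_le_div_of_nonneg_right hPSr (by positivity)
      _ ≤ (PS.card : ℝ) / W := div_le_div_of_nonneg_left (by positivity) hW0 hWle
  have hMD : (0 : ℝ) < (M : ℝ) ^ D := by positivity
  refine le_of_mul_le_mul_right (le_trans ?_ hA5) hMD
  calc (N : ℝ) * (5 / 9) ^ D / (64 * D * R ^ 2) * (M : ℝ) ^ D =
        (N : ℝ) * ((1 / 2 : ℝ) * ((5 / 9) ^ D * (M : ℝ) ^ D) / (32 * D * R ^ 2)) := by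
        have hD0 : (D : ℝ) ≠ 0 := by positivity
        field_simp
        norm_num
    _ ≤ (N : ℝ) * (T.card : ℝ) := mul_le_mul_of_nonneg_left hTr (by positivity)

end Vale.Agent.AP4
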