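import Mathlib

/-!
# P057: finite differences of sequences
-/

namespace Vale.Agent.AP4

open Finset Polynomial

/-- the iterated forward difference of a sequence -/
def dl {G : Type*} [AddCommGroup G] : ℕ → (ℕ → G) → ℕ → G
  | 0, f => f
  | n + 1, f => fun i => dl n f (i + 1) - dl n f i

section basic

variable {G : Type*} [AddCommGroup G]

theorem dl_zero (f : ℕ → G) : dl 0 f = f := rfl

theorem dl_succ (n : ℕ) (f : ℕ → G) (i : ℕ) : dl (n + 1) f i = dl n f (i + 1) - dl n f i := rfl

theorem dl_eq (n : ℕ) (f : ℕ → G) : dl n f = (fwdDiff 1)^[n] f := by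
  induction n with
  | zero => rfl
  | succ n ih =>
    rw [Function.iterate_succ_apply', ← ih]
    rfl

theorem dl_succ' (n : ℕ) (f : ℕ → G) (i : ℕ) :
    dl (n + 1) f i = dl n (fun i => f (i + 1) - f i) i := by
  induction n generalizing i with
  | zero => rfl
  | succ n ih =>
    rw [dl_succ, ih, ih]
    rfl

theorem dl_congr {n k : ℕ} {f g : ℕ → G} (h : ∀ i < k, f i = g i) :
    ∀ i, i + n < k → dl n f i = dl n g i := by
  induction n with
  | zero => intro i hi; exact h i hi
  | succ n ih =>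
    intro i hi
    rw [dl_succ, dl_succ, ih (i + 1) (by omega), ih i (by omega)]

theorem dl_add (n : ℕ) (f g : ℕ → G) (i : ℕ) :
    dl n (fun i => f i + g i) i = dl n f i + dl n g i := by
  induction n generalizing i with
  | zero => rfl
  | succ n ih =>
    rw [dl_succ, dl_succ, dl_succ, ih, ih]
    abel

theorem dl_sum {ι : Type*} (s : Finset ι) (n : ℕ) (f : ι → ℕ → G) (i : ℕ) :
    dl n (fun i => ∑ l ∈ s, f l i) i = ∑ l ∈ s, dl n (f l) i := by
  induction n generalizing i with
  | zero => rfl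
  | succ n ih =>
    rw [dl_succ, ih, ih, ← sum_sub_distrib]
    rfl

theorem dl_const (n : ℕ) (c : G) (i : ℕ) : dl (n + 1) (fun _ => c) i = 0 := by
  induction n generalizing i with
  | zero => rw [dl_succ, dl_zero, sub_self]
  | succ n ih => rw [dl_succ, ih, ih, sub_self]

theorem dl_map {H : Type*} [AddCommGroup H] (φ : G →+ H) (n : ℕ) (f : ℕ → G) (i : ℕ) :
    dl n (fun i => φ (f i)) i = φ (dl n f i) := by
  induction n generalizing i with
  | zero => rfl
  | succ n ih => rw [dl_succ, dl_succ, ih, ih, map_sub]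

theorem dl_zero_of {n k : ℕ} {f : ℕ → G} (h : ∀ i, i + n < k → dl n f i = 0) :
    ∀ m, n ≤ m → ∀ i, i + m < k → dl m f i = 0 := by
  intro m hm
  induction m, hm using Nat.le_induction with
  | base => exact h
  | succ m _ ih =>
    intro i hi
    rw [dl_succ, ih _ (by omega), ih _ (by omega), sub_zero]

/-- if all first differences vanish in the window, the sequence is constant there -/
theorem const_of_dl_one {k : ℕ} {f : ℕ → G} (h : ∀ i, i + 1 < k → dl 1 f i = 0) :
    ∀ i < k, f i = f 0 := by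
  intro i
  induction i with
  | zero => intro _; rfl
  | succ i ih =>
    intro hi
    have h1 := h i hi
    rw [dl_succ, dl_zero, sub_eq_zero] at h1
    rw [h1, ih (by omega)]

end basic

theorem dl_abs_lt {C : ℝ} {k : ℕ} {f : ℕ → ℝ} (h : ∀ i < k, |f i| < C) (n : ℕ) :
    ∀ i, i + n < k → |dl n f i| < 2 ^ n * C := by
  induction n with
  | zero => intro i hi; simpa [dl_zero] using h i hi
  | succ n ih =>
    intro i hi
    have h1 := abs_lt.1 (ih (i + 1) (by omega))
    have h2 := abs_lt.1 (ih i (by omega))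
    rw [dl_succ, abs_lt, pow_succ]
    constructor <;> linarith [h1.1, h1.2, h2.1, h2.2]

theorem dl_unit_lt {c : ℝ} {k : ℕ} {f : ℕ → ℝ} (h : ∀ i < k, 0 ≤ f i ∧ f i < c) (n : ℕ) :
    ∀ i, i + (n + 1) < k → |dl (n + 1) f i| < 2 ^ n * c := by
  intro i hi
  rw [dl_succ']
  refine dl_abs_lt (k := k - 1) (f := fun i => f (i + 1) - f i) ?_ n i (by omega)
  intro i hi
  have h1 := h (i + 1) (by omega)
  have h2 := h i (by omega)
  rw [abs_lt]
  constructor <;> linarith [h1.1, h1.2, h2.1, h2.2]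

/-- Newton interpolation -/
theorem interp {k j : ℕ} {f : ℕ → ℝ} (h : ∀ i, i + (j + 1) < k → dl (j + 1) f i = 0) :
    ∃ Q : ℝ[X], Q.natDegree ≤ j ∧ ∀ i < k, f i = Q.eval (i : ℝ) := by
  refine ⟨∑ l ∈ range (j + 1), C (dl l f 0 / (l.factorial : ℝ)) * descPochhammer ℝ l, ?_, ?_⟩
  · refine natDegree_sum_le_of_forall_le _ _ fun l hl => ?_
    rw [mem_range] at hl
    refine (natDegree_C_mul_le _ _).trans ?_
    rw [descPochhammer_natDegree]
    omega
  · intro i hi
    have h1 := shift_eq_sum_fwdDiff_iter (1 : ℕ) f i 0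
    rw [zero_add, smul_eq_mul, mul_one] at h1
    rw [h1, eval_finsetSum]
    have h2 : ∀ l, (C (dl l f 0 / (l.factorial : ℝ)) * descPochhammer ℝ l).eval (i : ℝ) =
        i.choose l • dl l f 0 := by
      intro l
      rw [eval_mul, eval_C, descPochhammer_eval_eq_descFactorial,
        Nat.descFactorial_eq_factorial_mul_choose, nsmul_eq_mul]
      have : (l.factorial : ℝ) ≠ 0 := by exact_mod_cast Nat.factorial_ne_zero l
      push_cast
      field_simp
    rw [sum_congr rfl fun l _ => h2 l]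
    have h3 : ∀ n, ∑ l ∈ range (n + 1), i.choose l • (fwdDiff (1 : ℕ))^[l] f 0 =
        ∑ l ∈ range (n + 1), i.choose l • dl l f 0 := by
      intro n
      refine sum_congr rfl fun l _ => ?_
      rw [dl_eq]
    rw [h3]
    have hz : ∀ l, (l ∉ range (i + 1) ∨ l ∉ range (j + 1)) → l ∈ range (i + j + 2) →
        i.choose l • dl l f 0 = 0 := by
      intro l hl _
      by_cases hli : i < l
      · rw [Nat.choose_eq_zero_of_lt hli, zero_smul]
      · rcases hl with hl | hl
        · rw [mem_range] at hl; omega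
        · rw [mem_range] at hl
          rw [dl_zero_of h l (by omega) 0 (by omega), smul_zero]
    rw [sum_subset (s₂ := range (i + j + 2)) (by intro x hx; rw [mem_range] at *; omega)
      fun l hl hl2 => hz l (Or.inl hl2) hl,
      sum_subset (s₁ := range (j + 1)) (s₂ := range (i + j + 2))
      (by intro x hx; rw [mem_range] at *; omega) fun l hl hl2 => hz l (Or.inr hl2) hl]

theorem dl_poly (Q : ℝ[X]) (n : ℕ) (i : ℕ) :
    dl n (fun i : ℕ => Q.eval (i : ℝ)) i = ((fwdDiff (1 : ℝ))^[n] Q.eval) (i : ℝ) := by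
  induction n generalizing i with
  | zero => rfl
  | succ n ih =>
    rw [dl_succ, Function.iterate_succ_apply', ih, ih]
    simp [fwdDiff]

theorem dl_poly_zero {Q : ℝ[X]} {n : ℕ} (h : Q.natDegree < n) (i : ℕ) :
    dl n (fun i : ℕ => Q.eval (i : ℝ)) i = 0 := by
  rw [dl_poly, Polynomial.fwdDiff_iter_eq_zero_of_degree_lt h]
  rfl

theorem dl_poly_top {Q : ℝ[X]} {j : ℕ} (h : Q.natDegree ≤ j) (i : ℕ) :
    dl j (fun i : ℕ => Q.eval (i : ℝ)) i = j.factorial * Q.coeff j := by
  rcases h.lt_or_eq with h | h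
  · rw [dl_poly_zero h, coeff_eq_zero_of_natDegree_lt h, mul_zero]
  · rw [dl_poly, ← h, Polynomial.fwdDiff_iter_degree_eq_factorial]
    simp [mul_comm]

theorem sq_top {Q : ℝ[X]} {j : ℕ} (h : Q.natDegree ≤ j) :
    (dl j (fun i : ℕ => Q.eval (i : ℝ)) 0) ^ 2 ≤
      dl (2 * j) (fun i : ℕ => (Q.eval (i : ℝ)) ^ 2) 0 := by
  have h1 : (fun i : ℕ => (Q.eval (i : ℝ)) ^ 2) = fun i : ℕ => (Q ^ 2).eval (i : ℝ) := by
    funext i
    rw [eval_pow]
  have h2 : (Q ^ 2).natDegree ≤ 2 * j := natDegree_pow_le.trans (by omega)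
  have h3 : (Q ^ 2).coeff (2 * j) = Q.coeff j ^ 2 := by
    exact coeff_pow_of_natDegree_le h
  rw [h1, dl_poly_top h, dl_poly_top h2, h3, mul_pow]
  refine mul_le_mul_of_nonneg_right ?_ (sq_nonneg _)
  have h4 : j.factorial * j.factorial ≤ (j + j).factorial := by
    exact Nat.le_of_dvd (Nat.factorial_pos _) (Nat.factorial_mul_factorial_dvd_factorial_add j j)
  rw [sq, two_mul]
  exact_mod_cast h4

end Vale.Agent.AP4
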