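import Vale.Agent.AP4.Rank1
import Vale.Agent.AP4.Disc

/-!
# P057: the recursion step
-/

namespace Vale.Agent.AP4

open Finset Polynomial

/-- `A` contains no nonconstant `k`-term polynomial progression of degree at most `D` -/
def FreeSeq (k D : ℕ) (A : Finset ℤ) : Prop :=
  ∀ a : ℕ → ℤ, (∀ i < k, a i ∈ A) → (∀ i, i + (D + 1) < k → dl (D + 1) a i = 0) →
    ∀ i < k, a i = a 0

/-- the properties of the coordinate sets which are used -/
structure Good (M k D : ℕ) (S : Finset (ZMod M)) (y : ZMod M → ℝ) : Prop where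
  bd : ∀ x ∈ S, y x ^ 2 ≤ 1 / 4
  diff : ∀ j, 1 ≤ j → j ≤ D → ∀ x : ℕ → ZMod M, (∀ i < k, x i ∈ S) →
    (∀ i, i + (j + 1) < k → dl (j + 1) x i = 0) →
    (∀ i, i + (j + 1) < k → dl (j + 1) (fun i => y (x i)) i = 0) ∧
      ∃ m : ℤ, 2 * dl j (fun i => y (x i)) 0 = 2 * (((dl j x 0).val : ℝ) / M) - m

theorem dl_affine {M : ℕ} (α θ : ZMod M) (a : ℕ → ℤ) (n i : ℕ) :
    dl (n + 1) (fun i => α + (a i : ZMod M) * θ) i = ((dl (n + 1) a i : ℤ) : ZMod M) * θ := by
  rw [dl_add, dl_const, zero_add]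
  have := dl_map ((AddMonoidHom.mulRight θ).comp (Int.castAddHom (ZMod M))) (n + 1) a i
  simpa using this

theorem dl_cast (a : ℕ → ℤ) (n i : ℕ) :
    dl n (fun i => (a i : ℝ)) i = ((dl n a i : ℤ) : ℝ) := by
  have := dl_map (Int.castAddHom ℝ) n a i
  simpa using this

theorem dl_sq_sum {d j k : ℕ} (Y : Fin d → ℕ → ℝ)
    (hY : ∀ l, ∀ i, i + (j + 1) < k → dl (j + 1) (Y l) i = 0) (h2j : 2 * j < k) :
    (∃ P : ℝ[X], P.natDegree ≤ 2 * j ∧ ∀ i < k, ∑ l, Y l i ^ 2 = P.eval (i : ℝ)) ∧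
      ∑ l, (dl j (Y l) 0) ^ 2 ≤ dl (2 * j) (fun i => ∑ l, Y l i ^ 2) 0 := by
  choose Q hQ1 hQ2 using fun l => interp (hY l)
  constructor
  · refine ⟨∑ l, Q l ^ 2, ?_, ?_⟩
    · refine natDegree_sum_le_of_forall_le _ _ fun l _ => ?_
      exact natDegree_pow_le.trans (Nat.mul_le_mul_left 2 (hQ1 l))
    · intro i hi
      rw [eval_finsetSum]
      refine sum_congr rfl fun l _ => ?_
      rw [eval_pow, ← hQ2 l i hi]
  · rw [dl_sum]
    refine sum_le_sum fun l _ => ?_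
    have h1 : dl j (Y l) 0 = dl j (fun i : ℕ => (Q l).eval (i : ℝ)) 0 :=
      dl_congr (k := k) (hQ2 l) 0 (by omega)
    have h2 : dl (2 * j) (fun i => Y l i ^ 2) 0 =
        dl (2 * j) (fun i : ℕ => ((Q l).eval (i : ℝ)) ^ 2) 0 :=
      dl_congr (k := k) (fun i hi => by rw [hQ2 l i hi]) 0 (by omega)
    rw [h1, h2]
    exact sq_top (hQ1 l)

theorem level_core {M k D d N : ℕ} [NeZero M] {S : Finset (ZMod M)} {y : ZMod M → ℝ}
    (hG : Good M k D S y) (hk : 2 * D + 1 ≤ k) {W : Finset ℤ} (hWf : FreeSeq k (2 * D) W)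
    {ρ : ℝ} (hρ : 0 < ρ) (t : ℤ) {α θ : Fin d → ZMod M} {a : ℕ → ℤ}
    (hT : ∀ i < k, (∀ l, α l + (a i : ZMod M) * θ l ∈ S) ∧ ∃ w ∈ W,
      ⌊(∑ l, y (α l + (a i : ZMod M) * θ l) ^ 2) / (ρ ^ 2 / 4 / 2 ^ (2 * D))⌋ =
        2 ^ (2 * D) * w + t)
    (ha : ∀ i, i + (D + 1) < k → dl (D + 1) a i = 0) (hne : ¬ ∀ i < k, a i = a 0)
    (hN : ∀ i < k, 0 ≤ a i ∧ a i < N) :
    ∃ c : ℤ, c ≠ 0 ∧ |c| ≤ 2 ^ D * N ∧ ∀ l, (c : ZMod M) * θ l ∈ B1 M ρ := by
  classical
  have hex : ∃ j, ∀ i, i + (j + 1) < k → dl (j + 1) a i = 0 := ⟨D, ha⟩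
  obtain ⟨j, hjdef⟩ : ∃ j, j = Nat.find hex := ⟨_, rfl⟩
  have hPj : ∀ i, i + (j + 1) < k → dl (j + 1) a i = 0 := by
    rw [hjdef]
    exact Nat.find_spec hex
  have hjD : j ≤ D := by
    rw [hjdef]
    exact Nat.find_min' hex ha
  have hj1 : 1 ≤ j := by
    rcases Nat.eq_zero_or_pos j with h0 | h0
    · exfalso
      rw [h0] at hPj
      exact hne (const_of_dl_one hPj)
    · exact h0
  have hc0 : dl j a 0 ≠ 0 := by
    intro hc
    obtain ⟨j', rfl⟩ : ∃ j', j = j' + 1 := ⟨j - 1, by omega⟩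
    have hmin : ¬ ∀ i, i + (j' + 1) < k → dl (j' + 1) a i = 0 :=
      Nat.find_min hex (by rw [← hjdef]; omega)
    refine hmin fun i hi => ?_
    have h1 := const_of_dl_one (k := k - (j' + 1)) (f := dl (j' + 1) a) (by
      intro i hi
      have h2 := hPj i (by omega)
      rw [dl_succ] at h2
      rw [dl_succ, dl_zero]
      exact h2) i (by omega)
    rw [h1, hc]
  obtain ⟨n, rfl⟩ : ∃ n, j = n + 1 := ⟨j - 1, by omega⟩
  refine ⟨dl (n + 1) a 0, hc0, ?_, ?_⟩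
  · have h1 := dl_unit_lt (k := k) (f := fun i => (a i : ℝ)) (c := (N : ℝ)) (by
      intro i hi
      exact ⟨by exact_mod_cast (hN i hi).1, by exact_mod_cast (hN i hi).2⟩) n 0 (by omega)
    rw [dl_cast] at h1
    have h2 : |((dl (n + 1) a 0 : ℤ) : ℝ)| ≤ 2 ^ D * (N : ℝ) := by
      refine h1.le.trans (mul_le_mul_of_nonneg_right ?_ (by positivity))
      exact pow_le_pow_right₀ (by norm_num) (by omega)
    exact_mod_cast h2
  · -- the coordinates
    have hcoord : ∀ l, (∀ i, i + (n + 1 + 1) < k →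
        dl (n + 1 + 1) (fun i => y (α l + (a i : ZMod M) * θ l)) i = 0) ∧
        ∃ m : ℤ, 2 * dl (n + 1) (fun i => y (α l + (a i : ZMod M) * θ l)) 0 =
          2 * (((((dl (n + 1) a 0 : ℤ) : ZMod M) * θ l).val : ℝ) / M) - m := by
      intro l
      have h1 := hG.diff (n + 1) (by omega) hjD (fun i => α l + (a i : ZMod M) * θ l)
        (fun i hi => (hT i hi).1 l) (by
          intro i hi
          rw [dl_affine, hPj i hi, Int.cast_zero, zero_mul])
      rw [dl_affine] at h1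
      exact h1
    obtain ⟨⟨P, hP1, hP2⟩, hsum⟩ := dl_sq_sum (k := k) (j := n + 1)
      (fun l i => y (α l + (a i : ZMod M) * θ l)) (fun l => (hcoord l).1) (by omega)
    have hη : 0 < ρ ^ 2 / 4 / 2 ^ (2 * D) := by positivity
    obtain ⟨η, hηdef⟩ : ∃ η : ℝ, η = ρ ^ 2 / 4 / 2 ^ (2 * D) := ⟨_, rfl⟩
    rw [← hηdef] at hT hη
    obtain ⟨F, hF⟩ : ∃ F : ℕ → ℝ, F = fun i => ∑ l, y (α l + (a i : ZMod M) * θ l) ^ 2 :=
      ⟨_, rfl⟩
    have hFi : ∀ i, F i = ∑ l, y (α l + (a i : ZMod M) * θ l) ^ 2 := fun i => by rw [hF]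
    have hw : ∀ i, ∃ w : ℤ, i < k → w ∈ W ∧ ⌊F i / η⌋ = 2 ^ (2 * D) * w + t := by
      intro i
      by_cases hi : i < k
      · obtain ⟨w, hw1, hw2⟩ := (hT i hi).2
        exact ⟨w, fun _ => ⟨hw1, by rw [hFi]; exact hw2⟩⟩
      · exact ⟨0, fun h => absurd h hi⟩
    choose w hw using hw
    have hφ : ∀ i < k, 0 ≤ F i / η - (2 ^ (2 * D) * (w i : ℝ) + t) ∧
        F i / η - (2 ^ (2 * D) * (w i : ℝ) + t) < 1 := by
      intro i hi
      have h1 := (hw i hi).2
      have h2 := Int.floor_le (F i / η)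
      have h3 := Int.lt_floor_add_one (F i / η)
      rw [h1] at h2 h3
      push_cast at h2 h3
      constructor <;> linarith
    have hwz : ∀ i, i + (2 * D + 1) < k → dl (2 * D + 1) w i = 0 := by
      intro i hi
      have h1 := dl_unit_lt hφ (2 * D) i hi
      have h2 : dl (2 * D + 1) (fun i => F i / η - (2 ^ (2 * D) * (w i : ℝ) + t)) i =
          -(2 ^ (2 * D) * ((dl (2 * D + 1) w i : ℤ) : ℝ)) := by
        have e1 : dl (2 * D + 1) (fun i => F i / η - (2 ^ (2 * D) * (w i : ℝ) + t)) i =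
            dl (2 * D + 1) (fun i => F i / η + (-(2 ^ (2 * D) * (w i : ℝ)) + -(t : ℝ))) i := by
          congr 1
          funext i
          ring
        rw [e1, dl_add, dl_add, dl_const, add_zero]
        have e2 : dl (2 * D + 1) (fun i => F i / η) i = 0 := by
          have e3 : dl (2 * D + 1) (fun i => F i / η) i =
              dl (2 * D + 1) (fun i : ℕ => (C (1 / η) * P).eval (i : ℝ)) i :=
            dl_congr (k := k) (fun i hi => by
              rw [eval_mul, eval_C, ← hP2 i hi, ← hFi, one_div, div_eq_inv_mul]) i hi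
          rw [e3]
          exact dl_poly_zero (lt_of_le_of_lt (natDegree_C_mul_le _ _) (by omega)) i
        rw [e2, zero_add]
        have e4 := dl_map (AddMonoidHom.mulLeft (-(2 ^ (2 * D) : ℝ))) (2 * D + 1)
          (fun i => (w i : ℝ)) i
        rw [dl_cast] at e4
        simp only [AddMonoidHom.coe_mulLeft, neg_mul] at e4
        exact e4
      rw [h2, abs_neg, abs_mul, abs_of_pos (by positivity : (0 : ℝ) < 2 ^ (2 * D)), mul_one] at h1
      have h3 : |((dl (2 * D + 1) w i : ℤ) : ℝ)| < 1 := by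
        by_contra hcon
        push Not at hcon
        have h4 : (2 : ℝ) ^ (2 * D) * 1 ≤ 2 ^ (2 * D) * |((dl (2 * D + 1) w i : ℤ) : ℝ)| :=
          mul_le_mul_of_nonneg_left hcon (by positivity)
        linarith
      have h5 : |dl (2 * D + 1) w i| < 1 := by exact_mod_cast h3
      rw [Int.abs_lt_one_iff] at h5
      exact h5
    have hwc := hWf w (fun i hi => (hw i hi).1) hwz
    have hG2 : ∀ i < k, 0 ≤ F i + -(η * (2 ^ (2 * D) * (w 0 : ℝ) + t)) ∧
        F i + -(η * (2 ^ (2 * D) * (w 0 : ℝ) + t)) < η := by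
      intro i hi
      have h1 := hφ i hi
      rw [hwc i hi] at h1
      obtain ⟨h2, h3⟩ := h1
      rw [sub_nonneg, le_div_iff₀ hη] at h2
      rw [sub_lt_iff_lt_add, div_lt_iff₀ hη] at h3
      constructor <;> nlinarith
    have h6 := dl_unit_lt hG2 (2 * n + 1) 0 (by omega)
    have h7 : dl (2 * n + 1 + 1) (fun i => F i + -(η * (2 ^ (2 * D) * (w 0 : ℝ) + t))) 0 =
        dl (2 * (n + 1)) (fun i => ∑ l, y (α l + (a i : ZMod M) * θ l) ^ 2) 0 := by
      rw [dl_add, dl_const, add_zero, hF]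
      rfl
    rw [h7] at h6
    have h8 : (2 : ℝ) ^ (2 * n + 1) * η ≤ ρ ^ 2 / 4 := by
      rw [hηdef]
      have : (2 : ℝ) ^ (2 * n + 1) ≤ 2 ^ (2 * D) := pow_le_pow_right₀ (by norm_num) (by omega)
      rw [mul_div_assoc', div_le_iff₀ (by positivity), mul_comm]
      exact mul_le_mul_of_nonneg_left this (by positivity)
    have h9 := lt_of_le_of_lt hsum (lt_of_abs_lt h6)
    intro l
    have h10 := single_le_sum (f := fun l => (dl (n + 1)
      (fun i => y (α l + (a i : ZMod M) * θ l)) 0) ^ 2) (fun l _ => sq_nonneg _) (mem_univ l)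
    rw [B1, mem_filter]
    obtain ⟨m, hm⟩ := (hcoord l).2
    refine ⟨mem_univ _, m, ?_⟩
    rw [← hm]
    nlinarith

end Vale.Agent.AP4
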