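import Vale.Agent.AP4.Rank2

/-!
# P057: the recursion step, averaging
-/

namespace Vale.Agent.AP4

open Finset

theorem pigeon {M d D m : ℕ} [NeZero M] {S : Finset (ZMod M)} {y : ZMod M → ℝ}
    (hbd : ∀ x ∈ S, y x ^ 2 ≤ 1 / 4) {W : Finset ℤ} (hW : ∀ w ∈ W, 0 ≤ w ∧ w < m)
    {ρ : ℝ} (hρ : 0 < ρ) (hm : (d : ℝ) / ρ ^ 2 ≤ m) :
    ∃ (t : ℤ) (T : Finset (Fin d → ZMod M)),
      (∀ x ∈ T, (∀ l, x l ∈ S) ∧ ∃ w ∈ W,
        ⌊(∑ l, y (x l) ^ 2) / (ρ ^ 2 / 4 / 2 ^ (2 * D))⌋ = 2 ^ (2 * D) * w + t) ∧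
      S.card ^ d * W.card ≤ T.card * (2 * (2 ^ (2 * D) * m) + 1) := by
  classical
  set PS : Finset (Fin d → ZMod M) := Fintype.piFinset fun _ : Fin d => S with hPS
  have hPScard : PS.card = S.card ^ d := by
    rw [hPS, Fintype.card_piFinset_const]
  have hmem : ∀ x ∈ PS, ∀ l, x l ∈ S := by
    intro x hx l
    rw [hPS, Fintype.mem_piFinset] at hx
    exact hx l
  obtain ⟨η, hη⟩ : ∃ η : ℝ, η = ρ ^ 2 / 4 / 2 ^ (2 * D) := ⟨_, rfl⟩
  have hη0 : 0 < η := by rw [hη]; positivity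
  rw [← hη]
  obtain ⟨u, hu⟩ : ∃ u : (Fin d → ZMod M) → ℤ, u = fun x => ⌊(∑ l, y (x l) ^ 2) / η⌋ := ⟨_, rfl⟩
  obtain ⟨K, hK⟩ : ∃ K : ℕ, K = 2 ^ (2 * D) * m := ⟨_, rfl⟩
  have hu1 : ∀ x ∈ PS, 0 ≤ u x ∧ u x ≤ K := by
    intro x hx
    rw [hu]
    constructor
    · exact Int.floor_nonneg.2 (div_nonneg (sum_nonneg fun l _ => sq_nonneg _) hη0.le)
    · have h1 : ∑ l, y (x l) ^ 2 ≤ d * (1 / 4) := by
        calc ∑ l, y (x l) ^ 2 ≤ ∑ _l : Fin d, (1 / 4 : ℝ) :=
              sum_le_sum fun l _ => hbd _ (hmem x hx l)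
          _ = d * (1 / 4) := by rw [sum_const, card_univ, Fintype.card_fin, nsmul_eq_mul]
      have h2 : (∑ l, y (x l) ^ 2) / η ≤ K := by
        rw [div_le_iff₀ hη0, hK, hη]
        push_cast
        have h3 : (2 : ℝ) ^ (2 * D) * m * (ρ ^ 2 / 4 / 2 ^ (2 * D)) = m * ρ ^ 2 / 4 := by
          field_simp
        rw [h3]
        have h4 : (d : ℝ) ≤ m * ρ ^ 2 := (div_le_iff₀ (by positivity)).1 hm
        linarith
      have h5 : (⌊(∑ l, y (x l) ^ 2) / η⌋ : ℝ) ≤ K := (Int.floor_le _).trans h2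
      exact_mod_cast h5
  have hcount : ∀ x ∈ PS, W.card ≤
      ((Icc (-(K : ℤ)) K).filter fun t => ∃ w ∈ W, u x = 2 ^ (2 * D) * w + t).card := by
    intro x hx
    refine card_le_card_of_injOn (fun w => u x - 2 ^ (2 * D) * w) ?_ ?_
    · intro w hw
      have h1 := hW w hw
      have h2 := hu1 x hx
      rw [mem_coe, mem_filter, mem_Icc]
      refine ⟨⟨?_, ?_⟩, w, hw, by ring⟩
      · have h3 : (2 : ℤ) ^ (2 * D) * w ≤ 2 ^ (2 * D) * m :=
          mul_le_mul_of_nonneg_left h1.2.le (by positivity)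
        have h4 : (K : ℤ) = 2 ^ (2 * D) * m := by rw [hK]; push_cast; ring
        linarith [h2.1]
      · have h3 : (0 : ℤ) ≤ 2 ^ (2 * D) * w := mul_nonneg (by positivity) h1.1
        linarith [h2.2]
    · intro w _ w' _ h
      have h1 : (2 : ℤ) ^ (2 * D) * w = 2 ^ (2 * D) * w' := by
        simp only at h
        linarith
      exact mul_left_cancel₀ (by positivity) h1
  obtain ⟨t, -, ht⟩ : ∃ t ∈ Icc (-(K : ℤ)) K, PS.card * W.card ≤
      (PS.filter fun x => ∃ w ∈ W, u x = 2 ^ (2 * D) * w + t).card * (2 * K + 1) := by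
    by_contra hcon
    push Not at hcon
    have hcI : (Icc (-(K : ℤ)) K).card = 2 * K + 1 := by
      rw [Int.card_Icc]
      omega
    have h1 : ∑ t ∈ Icc (-(K : ℤ)) K,
        (PS.filter fun x => ∃ w ∈ W, u x = 2 ^ (2 * D) * w + t).card * (2 * K + 1) <
        ∑ _t ∈ Icc (-(K : ℤ)) K, PS.card * W.card := by
      refine sum_lt_sum_of_nonempty ⟨0, ?_⟩ hcon
      rw [mem_Icc]
      omega
    rw [← sum_mul, sum_const, hcI, smul_eq_mul, mul_comm (2 * K + 1)] at h1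
    have h2 := lt_of_mul_lt_mul_right h1 (Nat.zero_le _)
    have h3 : ∑ t ∈ Icc (-(K : ℤ)) K,
        (PS.filter fun x => ∃ w ∈ W, u x = 2 ^ (2 * D) * w + t).card =
        ∑ x ∈ PS, ((Icc (-(K : ℤ)) K).filter fun t =>
          ∃ w ∈ W, u x = 2 ^ (2 * D) * w + t).card := by
      simp only [card_filter]
      exact sum_comm
    rw [h3] at h2
    have h4 : PS.card * W.card ≤ ∑ x ∈ PS, ((Icc (-(K : ℤ)) K).filter fun t =>
          ∃ w ∈ W, u x = 2 ^ (2 * D) * w + t).card := by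
      calc PS.card * W.card = ∑ _x ∈ PS, W.card := by rw [sum_const, smul_eq_mul]
        _ ≤ _ := sum_le_sum hcount
    omega
  refine ⟨t, PS.filter fun x => ∃ w ∈ W, u x = 2 ^ (2 * D) * w + t, ?_, ?_⟩
  · intro x hx
    rw [mem_filter] at hx
    refine ⟨hmem x hx.1, ?_⟩
    have h1 := hx.2
    rw [hu] at h1
    exact h1
  · rw [← hPScard, ← hK]
    exact ht

theorem level {M k D d N m : ℕ} [Fact M.Prime] {S : Finset (ZMod M)} {y : ZMod M → ℝ}
    (hG : Good M k D S y) (hk : 2 * D + 1 ≤ k) {W : Finset ℤ} (hW : ∀ w ∈ W, 0 ≤ w ∧ w < m)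
    (hWf : FreeSeq k (2 * D) W) {ρ : ℝ} (hρ : 0 < ρ) (hm : (d : ℝ) / ρ ^ 2 ≤ m)
    (hNM : 2 ^ D * N < M) (hB : 2 * (2 ^ D * N) * (B1 M ρ).card ^ d < M ^ d) :
    ∃ A : Finset ℤ, (∀ n ∈ A, 0 ≤ n ∧ n < N) ∧ FreeSeq k D A ∧
      N * (S.card ^ d * W.card) ≤ A.card * M ^ d * (2 * (2 ^ (2 * D) * m) + 1) := by
  classical
  obtain ⟨t, T, hT, hTcard⟩ := pigeon (D := D) hG.bd hW hρ hm
  have hG' : Fintype.card (Fin d → ZMod M) = M ^ d := by
    rw [Fintype.card_fun, ZMod.card, Fintype.card_fin]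
  obtain ⟨K, hK⟩ : ∃ K : ℕ, K = 2 ^ D * N := ⟨_, rfl⟩
  rw [← hK] at hNM hB
  have hBcard : (Fintype.piFinset fun _ : Fin d => B1 M ρ).card = (B1 M ρ).card ^ d := by
    rw [Fintype.card_piFinset_const]
  -- choice of `θ`
  obtain ⟨θ, hθ⟩ : ∃ θ : Fin d → ZMod M, ∀ c ∈ (Icc (-(K : ℤ)) K).erase 0,
      (fun l => (c : ZMod M) * θ l) ∉ Fintype.piFinset fun _ : Fin d => B1 M ρ := by
    by_contra hcon
    push Not at hcon
    have h1 : (univ : Finset (Fin d → ZMod M)) ⊆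
        ((Icc (-(K : ℤ)) K).erase 0).biUnion fun c => univ.filter fun θ =>
          (fun l => (c : ZMod M) * θ l) ∈ Fintype.piFinset fun _ : Fin d => B1 M ρ := by
      intro θ _
      obtain ⟨c, hc, hc2⟩ := hcon θ
      rw [mem_biUnion]
      exact ⟨c, hc, by rw [mem_filter]; exact ⟨mem_univ _, hc2⟩⟩
    have h2 : ∀ c ∈ (Icc (-(K : ℤ)) K).erase 0,
        (univ.filter fun θ : Fin d → ZMod M => (fun l => (c : ZMod M) * θ l) ∈
          Fintype.piFinset fun _ : Fin d => B1 M ρ).card ≤ (B1 M ρ).card ^ d := by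
      intro c hc
      rw [mem_erase, mem_Icc] at hc
      rw [← hBcard]
      refine card_le_card_of_injOn (fun θ l => (c : ZMod M) * θ l) ?_ ?_
      · intro θ hθ
        rw [mem_coe, mem_filter] at hθ
        exact hθ.2
      · intro θ _ θ' _ h
        have hc0 : (c : ZMod M) ≠ 0 := by
          intro h0
          rw [ZMod.intCast_zmod_eq_zero_iff_dvd] at h0
          have h3 := Int.le_of_dvd (abs_pos.2 hc.1) ((dvd_abs _ _).2 h0)
          have h4 : |c| ≤ K := abs_le.2 hc.2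
          omega
        funext j
        exact mul_left_cancel₀ hc0 (congrFun h j)
    have h3 := (card_le_card h1).trans (card_biUnion_le.trans (sum_le_card_nsmul _ _ _ h2))
    rw [card_univ, hG', card_erase_of_mem (by rw [mem_Icc]; omega), Int.card_Icc,
      smul_eq_mul] at h3
    have h4 : ((K : ℤ) + 1 - -(K : ℤ)).toNat - 1 = 2 * K := by omega
    rw [h4] at h3
    omega
  -- choice of `α`
  have hsum : ∑ α : Fin d → ZMod M,
      ((Ico (0 : ℤ) N).filter fun n : ℤ => (α + fun j => (n : ZMod M) * θ j) ∈ T).card =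
        N * T.card := by
    simp only [card_filter]
    rw [sum_comm]
    have h2 : ∀ n ∈ Ico (0 : ℤ) N, (∑ α : Fin d → ZMod M,
        if (α + fun j => (n : ZMod M) * θ j) ∈ T then 1 else 0) = T.card := by
      intro n _
      rw [← card_filter]
      refine card_bij (fun α _ => α + fun j => (n : ZMod M) * θ j) ?_ ?_ ?_
      · intro α hα
        rw [mem_filter] at hα
        exact hα.2
      · intro α _ α' _ h
        exact add_right_cancel h
      · intro x hx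
        refine ⟨x - fun j => (n : ZMod M) * θ j, ?_, ?_⟩
        · rw [mem_filter]
          exact ⟨mem_univ _, by rw [sub_add_cancel]; exact hx⟩
        · rw [sub_add_cancel]
    rw [sum_congr rfl h2, sum_const, Int.card_Ico, smul_eq_mul]
    congr 1
  obtain ⟨α, hα⟩ : ∃ α : Fin d → ZMod M, N * T.card ≤
      ((Ico (0 : ℤ) N).filter fun n : ℤ => (α + fun j => (n : ZMod M) * θ j) ∈ T).card *
        M ^ d := by
    by_contra hcon
    push Not at hcon
    have h1 : ∑ α : Fin d → ZMod M,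
        ((Ico (0 : ℤ) N).filter fun n : ℤ => (α + fun j => (n : ZMod M) * θ j) ∈ T).card *
          M ^ d < ∑ _α : Fin d → ZMod M, N * T.card := by
      refine sum_lt_sum_of_nonempty ⟨0, mem_univ _⟩ fun α _ => hcon α
    rw [← sum_mul, hsum, sum_const, card_univ, hG', smul_eq_mul, mul_comm] at h1
    exact lt_irrefl _ h1
  refine ⟨(Ico (0 : ℤ) N).filter fun n : ℤ => (α + fun j => (n : ZMod M) * θ j) ∈ T,
    fun n hn => mem_Ico.1 (mem_filter.1 hn).1, ?_, ?_⟩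
  · intro a ha hda
    by_contra hne
    obtain ⟨c, hc0, hc1, hc2⟩ := level_core hG hk hWf hρ t (α := α) (θ := θ) (a := a)
      (fun i hi => hT _ (mem_filter.1 (ha i hi)).2) hda hne
      (fun i hi => mem_Ico.1 (mem_filter.1 (ha i hi)).1)
    refine hθ c ?_ ?_
    · rw [mem_erase, mem_Icc]
      have h1 : |c| ≤ (K : ℤ) := by rw [hK]; exact_mod_cast hc1
      exact ⟨hc0, abs_le.1 h1⟩
    · rw [Fintype.mem_piFinset]
      exact hc2
  · calc N * (S.card ^ d * W.card) ≤ N * (T.card * (2 * (2 ^ (2 * D) * m) + 1)) :=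
          Nat.mul_le_mul_left _ hTcard
      _ = (N * T.card) * (2 * (2 ^ (2 * D) * m) + 1) := by ring
      _ ≤ _ := Nat.mul_le_mul_right _ hα

end Vale.Agent.AP4
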