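import Vale.Agent.AP4.Rank2

/-!
# P057: the two kinds of coordinate sets
-/

namespace Vale.Agent.AP4

open Finset

theorem dl_val {M : ℕ} [NeZero M] (x : ℕ → ZMod M) (n : ℕ) (i : ℕ) :
    ∃ z : ℤ, dl n (fun i => ((x i).val : ℝ) / M) i = ((dl n x i).val : ℝ) / M - z := by
  induction n generalizing i with
  | zero => exact ⟨0, by simp [dl_zero]⟩
  | succ n ih =>
    obtain ⟨z1, h1⟩ := ih (i + 1)
    obtain ⟨z2, h2⟩ := ih i
    obtain ⟨c, hc⟩ := val_add_div (dl n x (i + 1) - dl n x i) (dl n x i)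
    rw [sub_add_cancel] at hc
    refine ⟨z1 - z2 - c, ?_⟩
    rw [dl_succ, dl_succ, h1, h2, hc]
    push_cast
    ring

open Classical in
/-- the box `[0, 2^{-D})` in `ℤ/M` -/
noncomputable def SB (M D : ℕ) [NeZero M] : Finset (ZMod M) :=
  univ.filter fun x => 2 ^ D * x.val < M

theorem good_box {M k D : ℕ} [NeZero M] (hD : 1 ≤ D) :
    Good M k D (SB M D) (fun x => (x.val : ℝ) / M) := by
  classical
  have hM : (0 : ℝ) < M := by exact_mod_cast Nat.pos_of_ne_zero (NeZero.ne M)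
  have hlt : ∀ x ∈ SB M D, 0 ≤ (x.val : ℝ) / M ∧ (x.val : ℝ) / M < 1 / 2 ^ D := by
    intro x hx
    rw [SB, mem_filter] at hx
    have h1 : (2 : ℝ) ^ D * x.val < M := by exact_mod_cast hx.2
    refine ⟨by positivity, ?_⟩
    rw [div_lt_div_iff₀ hM (by positivity)]
    linarith
  refine ⟨?_, ?_⟩
  · intro x hx
    obtain ⟨h1, h2⟩ := hlt x hx
    have h3 : (1 : ℝ) / 2 ^ D ≤ 1 / 2 := by
      have : (2 : ℝ) ^ 1 ≤ 2 ^ D := pow_le_pow_right₀ (by norm_num) hD
      rw [pow_one] at this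
      exact one_div_le_one_div_of_le (by norm_num) this
    nlinarith
  · intro j hj1 hjD x hx hx2
    constructor
    · intro i hi
      obtain ⟨z, hz⟩ := dl_val x (j + 1) i
      rw [hx2 i hi, ZMod.val_zero, Nat.cast_zero, zero_div, zero_sub] at hz
      have h1 := dl_unit_lt (fun i hi => hlt (x i) (hx i hi)) j i hi
      rw [hz, abs_neg] at h1
      have h2 : (2 : ℝ) ^ j * (1 / 2 ^ D) ≤ 1 := by
        rw [mul_one_div, div_le_one (by positivity)]
        exact pow_le_pow_right₀ (by norm_num) hjD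
      have h3 : |(z : ℝ)| < 1 := lt_of_lt_of_le h1 h2
      have h4 : |z| < 1 := by exact_mod_cast h3
      rw [Int.abs_lt_one_iff] at h4
      rw [hz, h4]
      simp
    · obtain ⟨z, hz⟩ := dl_val x j 0
      refine ⟨2 * z, ?_⟩
      rw [hz]
      push_cast
      ring

theorem card_SB (M D : ℕ) [NeZero M] : (M : ℝ) ≤ 2 ^ D * ((SB M D).card : ℝ) := by
  classical
  have h1 : ((range M).filter fun v => 2 ^ D * v < M).card ≤ (SB M D).card := by
    refine card_le_card_of_injOn (fun v : ℕ => (v : ZMod M)) ?_ ?_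
    · intro v hv
      rw [mem_coe, mem_filter, mem_range] at hv
      rw [mem_coe, SB, mem_filter]
      refine ⟨mem_univ _, ?_⟩
      rw [ZMod.val_natCast_of_lt hv.1]
      exact hv.2
    · intro v hv w hw hvw
      rw [mem_coe, mem_filter, mem_range] at hv hw
      have h1 := congrArg ZMod.val hvw
      simp only at h1
      rwa [ZMod.val_natCast_of_lt hv.1, ZMod.val_natCast_of_lt hw.1] at h1
  have hM : 0 < M := Nat.pos_of_ne_zero (NeZero.ne M)
  have h2 : range ((M - 1) / 2 ^ D + 1) ⊆ (range M).filter fun v => 2 ^ D * v < M := by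
    intro v hv
    rw [mem_range, Nat.lt_succ_iff] at hv
    have h3 : 2 ^ D * v ≤ M - 1 := by
      calc 2 ^ D * v ≤ 2 ^ D * ((M - 1) / 2 ^ D) := Nat.mul_le_mul_left _ hv
        _ ≤ M - 1 := Nat.mul_div_le _ _
    have h4 : 1 * v ≤ 2 ^ D * v := Nat.mul_le_mul_right _ Nat.one_le_two_pow
    rw [mem_filter, mem_range]
    omega
  have h5 := (card_le_card h2).trans h1
  rw [card_range] at h5
  have h6 : M - 1 < 2 ^ D * ((M - 1) / 2 ^ D + 1) := by
    have := Nat.lt_mul_div_succ (M - 1) (show 0 < 2 ^ D by positivity)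
    exact this
  have h7 : M ≤ 2 ^ D * (SB M D).card := by
    calc M ≤ 2 ^ D * ((M - 1) / 2 ^ D + 1) := by omega
      _ ≤ _ := Nat.mul_le_mul_left _ h5
  exact_mod_cast h7

theorem adj {y0 y1 y2 y3 : ℝ} {e0 e1 e2 e3 s t p q : ℤ}
    (h0 : Adm e0 y0) (h1 : Adm e1 y1) (h2 : Adm e2 y2) (h3 : Adm e3 y3)
    (hs : 2 * (y0 - 2 * y1 + y2) = s) (hp : s = 2 * p - e0 - e2)
    (ht : 2 * (y1 - 2 * y2 + y3) = t) (hq : t = 2 * q - e1 - e3) :
    (s = 0 ∧ t = 0) ∨ (s ≠ 0 ∧ t ≠ 0 ∧ e0 = 1 ∧ e1 = 0 ∧ e2 = 0 ∧ e3 = 1) := by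
  have b0 := abs_lt.1 h0.lt
  have b1 := abs_lt.1 h1.lt
  have b2 := abs_lt.1 h2.lt
  have b3 := abs_lt.1 h3.lt
  rcases second h0 h1 h2 hs hp with ⟨s1, s2⟩ | ⟨s1, s2, s3⟩
  · rcases second h1 h2 h3 ht hq with ⟨t1, t2⟩ | ⟨t1, t2, t3⟩
    · exact Or.inl ⟨s1, t1⟩
    · exfalso
      rw [s1] at hs
      push_cast at hs
      rcases t1 with t1 | t1
      · rw [t1] at ht
        push_cast at ht
        linarith [b0.1, b0.2, b1.1, b1.2, b2.1, b2.2, b3.1, b3.2]
      · rw [t1] at ht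
        push_cast at ht
        linarith [b0.1, b0.2, b1.1, b1.2, b2.1, b2.2, b3.1, b3.2]
  · rcases second h1 h2 h3 ht hq with ⟨t1, t2⟩ | ⟨t1, t2, t3⟩
    · exfalso
      rw [t1] at ht
      push_cast at ht
      rcases s1 with s1 | s1
      · rw [s1] at hs
        push_cast at hs
        linarith [b0.1, b0.2, b1.1, b1.2, b2.1, b2.2, b3.1, b3.2]
      · rw [s1] at hs
        push_cast at hs
        linarith [b0.1, b0.2, b1.1, b1.2, b2.1, b2.2, b3.1, b3.2]
    · right
      refine ⟨by omega, by omega, by omega, s3, t3, by omega⟩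

theorem good_S {M k : ℕ} [NeZero M] (hk : 5 ≤ k) : Good M k 1 (S1 M) (fun x => yy x) := by
  classical
  have hmem : ∀ x ∈ S1 M, InS x := fun x hx => by
    rw [S1, mem_filter] at hx
    exact hx.2
  refine ⟨?_, ?_⟩
  · intro x hx
    have h1 := abs_lt.1 (inS_adm (hmem x hx)).lt
    nlinarith [h1.1, h1.2]
  · intro j hj1 hj2 x hx hx2
    have hj : j = 1 := by omega
    subst hj
    have hg : ∀ i, i + 1 < k → x (i + 1) = x i + (x 1 - x 0) := by
      intro i hi
      have h1 := const_of_dl_one (k := k - 1) (f := dl 1 x) (by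
        intro i hi
        have h2 := hx2 i (by omega)
        rw [dl_succ] at h2
        rw [dl_succ, dl_zero]
        exact h2) i (by omega)
      rw [dl_succ, dl_succ, dl_zero] at h1
      rw [← h1]
      ring
    have hst : ∀ i, i + 1 < k → ∃ a : ℤ, yy (x (i + 1)) + (lab (x (i + 1)) : ℝ) / 2 =
        yy (x i) + (lab (x i) : ℝ) / 2 + ((x 1 - x 0).val : ℝ) / M + a := by
      intro i hi
      have h1 := step (x := x i) (g := x 1 - x 0) (hmem _ (hx i (by omega)))
        (by rw [← hg i hi]; exact hmem _ (hx (i + 1) hi))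
      rw [← hg i hi] at h1
      exact h1
    have hA : ∀ i, i < k → Adm (lab (x i)) (yy (x i)) := fun i hi => inS_adm (hmem _ (hx i hi))
    have hsi : ∀ i, i + 2 < k → ∃ s p : ℤ,
        2 * (yy (x i) - 2 * yy (x (i + 1)) + yy (x (i + 2))) = s ∧
        s = 2 * p - lab (x i) - lab (x (i + 2)) := by
      intro i hi
      obtain ⟨a, ha⟩ := hst i (by omega)
      obtain ⟨b, hb⟩ := hst (i + 1) (by omega)
      refine ⟨2 * (lab (x (i + 1)) + b - a) - lab (x i) - lab (x (i + 2)), _, ?_, rfl⟩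
      push_cast
      linarith
    have hadj : ∀ i, i + 3 < k → ∀ s t p q : ℤ,
        2 * (yy (x i) - 2 * yy (x (i + 1)) + yy (x (i + 2))) = s →
        s = 2 * p - lab (x i) - lab (x (i + 2)) →
        2 * (yy (x (i + 1)) - 2 * yy (x (i + 2)) + yy (x (i + 3))) = t →
        t = 2 * q - lab (x (i + 1)) - lab (x (i + 3)) →
        (s = 0 ∧ t = 0) ∨ (s ≠ 0 ∧ t ≠ 0 ∧ lab (x i) = 1 ∧ lab (x (i + 1)) = 0 ∧
          lab (x (i + 2)) = 0 ∧ lab (x (i + 3)) = 1) := by
      intro i hi s t p q h1 h2 h3 h4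
      exact adj (hA i (by omega)) (hA (i + 1) (by omega)) (hA (i + 2) (by omega))
        (hA (i + 3) (by omega)) h1 h2 h3 h4
    have hz4 : ∀ i, i + 3 < k → yy (x i) - 2 * yy (x (i + 1)) + yy (x (i + 2)) = 0 ∧
        yy (x (i + 1)) - 2 * yy (x (i + 2)) + yy (x (i + 3)) = 0 := by
      intro i hi
      obtain ⟨s, p, hs1, hs2⟩ := hsi i (by omega)
      obtain ⟨t, q, ht1, ht2⟩ := hsi (i + 1) (by omega)
      rcases hadj i hi s t p q hs1 hs2 ht1 ht2 with ⟨h1, h2⟩ | ⟨h1, h2, h3, h4, h5, h6⟩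
      · rw [h1, Int.cast_zero] at hs1
        rw [h2, Int.cast_zero] at ht1
        exact ⟨by linarith, by linarith⟩
      · exfalso
        by_cases hik : i + 4 < k
        · obtain ⟨r, o, hr1, hr2⟩ := hsi (i + 2) (by omega)
          rcases hadj (i + 1) (by omega) t r q o ht1 ht2 hr1 hr2 with ⟨g1, g2⟩ | ⟨_, _, g3, _⟩
          · exact h2 g1
          · omega
        · obtain ⟨i', rfl⟩ : ∃ i', i = i' + 1 := ⟨i - 1, by omega⟩
          obtain ⟨r, o, hr1, hr2⟩ := hsi i' (by omega)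
          rcases hadj i' (by omega) r s o p hr1 hr2 hs1 hs2 with ⟨g1, g2⟩ | ⟨_, _, _, g4, _⟩
          · exact h1 g2
          · omega
    constructor
    · intro i hi
      have h1 : yy (x i) - 2 * yy (x (i + 1)) + yy (x (i + 2)) = 0 := by
        by_cases hik : i + 3 < k
        · exact (hz4 i hik).1
        · obtain ⟨i', rfl⟩ : ∃ i', i = i' + 1 := ⟨i - 1, by omega⟩
          exact (hz4 i' (by omega)).2
      rw [dl_succ, dl_succ, dl_succ, dl_zero]
      linarith
    · obtain ⟨a, ha⟩ := hst 0 (by omega)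
      refine ⟨lab (x 1) - lab (x 0) - 2 * a, ?_⟩
      rw [dl_succ, dl_succ, dl_zero, dl_zero]
      push_cast
      simp only [zero_add] at ha ⊢
      linarith

end Vale.Agent.AP4
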