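import Vale.Agent.AP4.Rank3
import Vale.Agent.AP4.Rank4

/-!
# P057: the finite recursion inequalities
-/

namespace Vale.Agent.AP4

open Finset

open Classical in
/-- the largest cardinality of a subset of `{0, …, N - 1}` without nonconstant `k`-term
polynomial progressions of degree at most `D` -/
noncomputable def RS (k D N : ℕ) : ℕ :=
  ((Ico (0 : ℤ) N).powerset.filter fun A => FreeSeq k D A).sup card

theorem le_RS {k D N : ℕ} {A : Finset ℤ} (h : ∀ n ∈ A, 0 ≤ n ∧ n < N) (h2 : FreeSeq k D A) :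
    A.card ≤ RS k D N := by
  classical
  unfold RS
  refine Finset.le_sup (f := card) ?_
  rw [mem_filter, mem_powerset]
  exact ⟨fun n hn => mem_Ico.2 (h n hn), h2⟩

theorem exists_RS (k D N : ℕ) (hk : 1 ≤ k) : ∃ A : Finset ℤ, (∀ n ∈ A, 0 ≤ n ∧ n < N) ∧
    FreeSeq k D A ∧ A.card = RS k D N := by
  classical
  have hne : ((Ico (0 : ℤ) N).powerset.filter fun A => FreeSeq k D A).Nonempty := by
    refine ⟨∅, ?_⟩
    rw [mem_filter, mem_powerset]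
    refine ⟨empty_subset _, fun a ha => ?_⟩
    exact absurd (ha 0 (by omega)) (notMem_empty _)
  obtain ⟨A, hA, hA2⟩ := exists_mem_eq_sup _ hne card
  rw [mem_filter, mem_powerset] at hA
  exact ⟨A, fun n hn => mem_Ico.1 (hA.1 hn), hA.2, by rw [RS, hA2]⟩

theorem one_le_RS {k D N : ℕ} (hN : 1 ≤ N) (hk : 1 ≤ k) : 1 ≤ RS k D N := by
  have h1 := le_RS (k := k) (D := D) (N := N) (A := {0}) (by
    intro n hn
    rw [mem_singleton] at hn
    subst hn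
    exact ⟨le_refl _, by exact_mod_cast hN⟩) (by
    intro a ha _ i hi
    have h1 := mem_singleton.1 (ha i hi)
    have h2 := mem_singleton.1 (ha 0 (by omega))
    rw [h1, h2])
  rwa [card_singleton] at h1

/-- general form of the recursion inequality -/
theorem rec_gen {k D d N m : ℕ} (hk : 2 * D + 1 ≤ k) (hd : 1 ≤ d) (hN : 1 ≤ N)
    (hm : 16 * d * (((2 ^ (D + 1) * N : ℝ)) ^ (1 / (d : ℝ))) ^ 2 ≤ m) {b : ℝ}
    (hS : ∀ K : ℕ, ∃ M, K ≤ M ∧ ∃ hM : M.Prime, ∃ (S : Finset (ZMod M)) (y : ZMod M → ℝ),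
      (haveI := Fact.mk hM; Good M k D S y) ∧ b * (M : ℝ) ^ d ≤ (S.card : ℝ) ^ d) :
    (N : ℝ) * b * (RS k (2 * D) m) / (2 ^ (2 * D + 2) * m) ≤ RS k D N := by
  classical
  have hNr : (1 : ℝ) ≤ N := by exact_mod_cast hN
  have hdr : (1 : ℝ) ≤ d := by exact_mod_cast hd
  obtain ⟨E, hE⟩ : ∃ E : ℝ, E = 2 ^ (D + 1) * N := ⟨_, rfl⟩
  have hE1 : 1 ≤ E := by
    rw [hE]
    have : (1 : ℝ) ≤ 2 ^ (D + 1) := one_le_pow₀ (by norm_num)
    nlinarith
  rw [← hE] at hm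
  obtain ⟨R, hR⟩ : ∃ R : ℝ, R = E ^ (1 / (d : ℝ)) := ⟨_, rfl⟩
  rw [← hR] at hm
  have hR1 : 1 ≤ R := by
    rw [hR]
    exact Real.one_le_rpow hE1 (by positivity)
  have hRD : R ^ d = E := by
    rw [hR, ← Real.rpow_natCast, ← Real.rpow_mul (by positivity), one_div,
      inv_mul_cancel₀ (by positivity), Real.rpow_one]
  have hRE : R ≤ E := by
    rw [← hRD]
    exact le_self_pow₀ hR1 (by omega)
  have hR0 : 0 < R := by linarith
  obtain ⟨ρ, hρ⟩ : ∃ ρ : ℝ, ρ = 1 / (4 * R) := ⟨_, rfl⟩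
  have hρ0 : 0 < ρ := by rw [hρ]; positivity
  have hρR : 4 * ρ * R = 1 := by rw [hρ]; field_simp
  obtain ⟨M, hKM, hMp, S, y, hG, hb⟩ := hS (4 * 2 ^ (D + 1) * N + 3)
  have : Fact M.Prime := ⟨hMp⟩
  have hKMr : 4 * E + 3 ≤ M := by
    have : ((4 * 2 ^ (D + 1) * N + 3 : ℕ) : ℝ) ≤ M := by exact_mod_cast hKM
    push_cast at this
    rw [hE]
    linarith
  have hM0 : (0 : ℝ) < M := by linarith
  have hρM : 1 ≤ ρ * M := by
    have h1 : 4 * R ≤ M := by linarith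
    nlinarith
  have hNM : 2 ^ D * N < M := by
    have : 2 ^ D * N ≤ 4 * 2 ^ (D + 1) * N := by
      rw [pow_succ]
      nlinarith [Nat.zero_le (2 ^ D * N)]
    omega
  have hB : 2 * (2 ^ D * N) * (B1 M ρ).card ^ d < M ^ d := by
    have h1 : ((B1 M ρ).card : ℝ) ≤ 3 * (ρ * M) :=
      (card_B1 M (by omega) hρ0.le).trans (by linarith)
    have h2 : ((B1 M ρ).card : ℝ) ^ d ≤ (3 * (ρ * M)) ^ d :=
      pow_le_pow_left₀ (by positivity) h1 d
    have h3 : E * (3 * (ρ * M)) ^ d = (3 / 4) ^ d * M ^ d := by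
      rw [← hRD, ← mul_pow, ← mul_pow]
      congr 1
      have : R * (3 * (ρ * M)) = 3 / 4 * (4 * ρ * R) * M := by ring
      rw [this, hρR]
      ring
    have h4 : ((3 : ℝ) / 4) ^ d < 1 := pow_lt_one₀ (by norm_num) (by norm_num) (by omega)
    have h5 : ((2 * (2 ^ D * N) * (B1 M ρ).card ^ d : ℕ) : ℝ) < ((M ^ d : ℕ) : ℝ) := by
      push_cast
      have h6 : (2 : ℝ) * (2 ^ D * N) = E := by rw [hE, pow_succ]; ring
      rw [h6]
      calc E * ((B1 M ρ).card : ℝ) ^ d ≤ E * (3 * (ρ * M)) ^ d :=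
            mul_le_mul_of_nonneg_left h2 (by positivity)
        _ = (3 / 4) ^ d * M ^ d := h3
        _ < 1 * M ^ d := mul_lt_mul_of_pos_right h4 (by positivity)
        _ = M ^ d := one_mul _
    exact_mod_cast h5
  have hm' : (d : ℝ) / ρ ^ 2 ≤ m := by
    refine le_trans (le_of_eq ?_) hm
    rw [hρ]
    field_simp
    ring
  obtain ⟨W, hW1, hW2, hW3⟩ := exists_RS k (2 * D) m (by omega)
  obtain ⟨A, hA1, hA2, hA3⟩ := level hG hk hW1 hW2 hρ0 hm' hNM hB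
  have hA4 : (A.card : ℝ) ≤ RS k D N := by exact_mod_cast le_RS hA1 hA2
  rw [hW3] at hA3
  have hA5 : (N : ℝ) * ((S.card : ℝ) ^ d * RS k (2 * D) m) ≤
      A.card * (M : ℝ) ^ d * (2 * (2 ^ (2 * D) * m) + 1) := by exact_mod_cast hA3
  have hm1 : (1 : ℝ) ≤ m := by
    refine le_trans ?_ hm
    nlinarith [mul_le_mul hdr (one_le_pow₀ hR1 (n := 2)) (by norm_num) (by positivity)]
  refine le_trans ?_ hA4
  rw [div_le_iff₀ (by positivity)]
  have hMD : (0 : ℝ) < (M : ℝ) ^ d := by positivity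
  refine le_of_mul_le_mul_right ?_ hMD
  have h7 : (2 : ℝ) * (2 ^ (2 * D) * m) + 1 ≤ 2 ^ (2 * D + 2) * m := by
    have h8 : (1 : ℝ) ≤ 2 ^ (2 * D) := one_le_pow₀ (by norm_num)
    have h9 : (1 : ℝ) ≤ 2 ^ (2 * D) * m := by nlinarith
    have h10 : (2 : ℝ) ^ (2 * D + 2) * m = 4 * (2 ^ (2 * D) * m) := by
      rw [pow_add]
      ring
    linarith
  calc (N : ℝ) * b * (RS k (2 * D) m) * (M : ℝ) ^ d =
        N * (RS k (2 * D) m) * (b * (M : ℝ) ^ d) := by ring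
    _ ≤ N * (RS k (2 * D) m) * (S.card : ℝ) ^ d := mul_le_mul_of_nonneg_left hb (by positivity)
    _ = N * ((S.card : ℝ) ^ d * RS k (2 * D) m) := by ring
    _ ≤ A.card * (M : ℝ) ^ d * (2 * (2 ^ (2 * D) * m) + 1) := hA5
    _ ≤ A.card * (M : ℝ) ^ d * (2 ^ (2 * D + 2) * m) := mul_le_mul_of_nonneg_left h7 (by positivity)
    _ = A.card * (2 ^ (2 * D + 2) * m) * (M : ℝ) ^ d := by ring

theorem rec_box {k D d N m : ℕ} (hD : 1 ≤ D) (hk : 2 * D + 1 ≤ k) (hd : 1 ≤ d) (hN : 1 ≤ N)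
    (hm : 16 * d * (((2 ^ (D + 1) * N : ℝ)) ^ (1 / (d : ℝ))) ^ 2 ≤ m) :
    (N : ℝ) * (1 / 2 ^ D) ^ d * (RS k (2 * D) m) / (2 ^ (2 * D + 2) * m) ≤ RS k D N := by
  refine rec_gen hk hd hN hm fun K => ?_
  obtain ⟨M, hKM, hMp⟩ := Nat.exists_infinite_primes K
  have : Fact M.Prime := ⟨hMp⟩
  refine ⟨M, hKM, hMp, SB M D, _, good_box hD, ?_⟩
  have h1 := card_SB M D
  rw [← mul_pow]
  refine pow_le_pow_left₀ (by positivity) ?_ d
  rw [one_div, inv_mul_le_iff₀ (by positivity)]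
  exact h1

theorem rec_S {k d N m : ℕ} (hk : 5 ≤ k) (hd : 1 ≤ d) (hN : 1 ≤ N)
    (hm : 16 * d * (((2 ^ (1 + 1) * N : ℝ)) ^ (1 / (d : ℝ))) ^ 2 ≤ m) :
    (N : ℝ) * (1 / 2 * (5 / 9) ^ d) * (RS k (2 * 1) m) / (2 ^ (2 * 1 + 2) * m) ≤ RS k 1 N := by
  refine rec_gen (by omega) hd hN hm fun K => ?_
  obtain ⟨M, hKM, hMp⟩ := Nat.exists_infinite_primes (K + 70 * d + 70)
  have : Fact M.Prime := ⟨hMp⟩
  refine ⟨M, by omega, hMp, S1 M, _, good_S hk, ?_⟩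
  have hKMr : (70 * d + 70 : ℝ) ≤ M := by exact_mod_cast (by omega : 70 * d + 70 ≤ M)
  have hdr : (1 : ℝ) ≤ d := by exact_mod_cast hd
  have hM0 : (0 : ℝ) < M := by linarith
  have hS1 : (5 / 9 : ℝ) * M * (1 + -(35 / M)) ≤ (S1 M).card := by
    refine le_trans ?_ (card_S1 M)
    have : (5 / 9 : ℝ) * M * (1 + -(35 / M)) = 5 / 9 * M - 175 / 9 := by
      field_simp
      ring
    rw [this]
    linarith
  have h35 : (35 : ℝ) / M ≤ 1 / 2 := by
    rw [div_le_div_iff₀ hM0 (by norm_num)]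
    linarith
  have hbern : (1 / 2 : ℝ) ≤ (1 + -(35 / M)) ^ d := by
    refine le_trans ?_ (one_add_mul_le_pow (by linarith) d)
    have : (d : ℝ) * (35 / M) ≤ 1 / 2 := by
      rw [← mul_div_assoc, div_le_div_iff₀ hM0 (by norm_num)]
      linarith
    linarith
  calc (1 / 2 * (5 / 9) ^ d : ℝ) * (M : ℝ) ^ d
      ≤ (1 + -(35 / M)) ^ d * ((5 / 9) ^ d * M ^ d) := by
        rw [mul_assoc]
        exact mul_le_mul_of_nonneg_right hbern (by positivity)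
    _ = (5 / 9 * M * (1 + -(35 / M))) ^ d := by
        rw [mul_pow, mul_pow]
        ring
    _ ≤ ((S1 M).card : ℝ) ^ d := by
        refine pow_le_pow_left₀ ?_ hS1 d
        have : (0 : ℝ) ≤ 1 + -(35 / M) := by linarith
        positivity

end Vale.Agent.AP4
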