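import Mathlib

/-!
# P057: asymptotics of the recursion
-/

namespace Vale.Agent.AP4

open Filter Real Topology

/-- `f N ≥ N 2^{-(c + o(1)) (log₂ N)^{1/(q+1)}}` -/
def HH (f : ℕ → ℕ) (q : ℕ) (c : ℝ) : Prop :=
  ∀ ε : ℝ, 0 < ε → ∀ᶠ N : ℕ in atTop,
    (N : ℝ) * (2 : ℝ) ^ (-(c + ε) * (logb 2 N) ^ (1 / ((q : ℝ) + 1))) ≤ f N

theorem log_lim {x : ℝ} (hx : 0 < x) :
    Tendsto (fun a : ℝ => logb 2 (x * a + 1) / a) atTop (𝓝 0) := by
  have h1 : Tendsto (fun a : ℝ => x * a + 1) atTop atTop :=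
    tendsto_atTop_add_const_right _ _ (tendsto_id.const_mul_atTop hx)
  have h2 : Tendsto (fun y : ℝ => log y / y) atTop (𝓝 0) :=
    isLittleO_log_id_atTop.tendsto_div_nhds_zero
  have h3 := h2.comp h1
  have h4 : Tendsto (fun a : ℝ => x + 1 / a) atTop (𝓝 (x + 0)) :=
    tendsto_const_nhds.add (tendsto_const_nhds.div_atTop tendsto_id)
  have h5 := (h3.mul h4).div_const (log 2)
  rw [zero_mul, zero_div] at h5
  refine h5.congr' ?_
  filter_upwards [eventually_gt_atTop 0] with a ha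
  simp only [Function.comp]
  have h6 : x * a + 1 ≠ 0 := by positivity
  have h7 : log 2 ≠ 0 := (log_pos (by norm_num)).ne'
  rw [logb]
  field_simp

theorem lim_aux (q : ℕ) {x s κ c' E' C1 : ℝ} (hx : 0 < x) :
    Tendsto (fun a : ℝ => κ * x + κ / a + c' * ((5 + logb 2 (x * a + 1) +
      (2 / x) * (E' / a + a ^ (q + 1))) / a ^ (q + 1)) ^ s + C1 / a) atTop
      (𝓝 (κ * x + c' * (2 / x) ^ s)) := by
  have hpow : Tendsto (fun a : ℝ => a ^ (q + 1)) atTop atTop := tendsto_pow_atTop (by omega)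
  have h5 : Tendsto (fun a : ℝ => 5 / a ^ (q + 1)) atTop (𝓝 0) :=
    tendsto_const_nhds.div_atTop hpow
  have hl : Tendsto (fun a : ℝ => logb 2 (x * a + 1) / a ^ (q + 1)) atTop (𝓝 0) := by
    refine tendsto_of_tendsto_of_tendsto_of_le_of_le' tendsto_const_nhds (log_lim hx) ?_ ?_
    · filter_upwards [eventually_gt_atTop 1] with a ha
      have : 0 ≤ logb 2 (x * a + 1) := logb_nonneg (by norm_num) (by nlinarith [mul_pos hx (by linarith : (0:ℝ) < a)])
      positivity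
    · filter_upwards [eventually_gt_atTop 1] with a ha
      have h0 : 0 ≤ logb 2 (x * a + 1) := logb_nonneg (by norm_num) (by nlinarith [mul_pos hx (by linarith : (0:ℝ) < a)])
      have h1 : a ≤ a ^ (q + 1) := le_self_pow₀ ha.le (by omega)
      exact div_le_div_of_nonneg_left h0 (by linarith) h1
  have hE : Tendsto (fun a : ℝ => (2 / x) * (E' / a / a ^ (q + 1))) atTop (𝓝 0) := by
    have h1 : Tendsto (fun a : ℝ => E' / a) atTop (𝓝 0) := tendsto_const_nhds.div_atTop tendsto_id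
    have h2 := (h1.div_atTop hpow).const_mul (2 / x)
    rwa [mul_zero] at h2
  have hin : Tendsto (fun a : ℝ => (5 + logb 2 (x * a + 1) +
      (2 / x) * (E' / a + a ^ (q + 1))) / a ^ (q + 1)) atTop (𝓝 (2 / x)) := by
    have h1 := ((h5.add hl).add hE).add_const (2 / x)
    rw [add_zero, add_zero, zero_add] at h1
    refine h1.congr' ?_
    filter_upwards [eventually_gt_atTop 0] with a ha
    have : a ^ (q + 1) ≠ 0 := by positivity
    field_simp
    ring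
  have hs := hin.rpow_const (p := s) (Or.inl (by positivity))
  have hκ : Tendsto (fun a : ℝ => κ / a) atTop (𝓝 0) := tendsto_const_nhds.div_atTop tendsto_id
  have hC : Tendsto (fun a : ℝ => C1 / a) atTop (𝓝 0) := tendsto_const_nhds.div_atTop tendsto_id
  have h := (((hκ.const_add (κ * x)).add (hs.const_mul c')).add hC)
  rw [add_zero, add_zero] at h
  exact h

theorem H_step {f g : ℕ → ℕ} {q : ℕ} {c κ C0 E x : ℝ} (hc : 0 ≤ c) (hκ : 0 ≤ κ)
    (hC0 : 1 ≤ C0) (hE : 1 ≤ E) (hx : 0 < x)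
    (hrec : ∀ N d m : ℕ, 1 ≤ N → 1 ≤ d → 16 * d * ((E * N) ^ (1 / (d : ℝ))) ^ 2 ≤ (m : ℝ) →
      (N : ℝ) * (2 : ℝ) ^ (-(κ * d)) * (g m) / (C0 * m) ≤ f N)
    (hg : HH g q c) : HH f (q + 1) (κ * x + c * (2 / x) ^ (1 / ((q : ℝ) + 1))) := by
  intro ε hε
  obtain ⟨s, hs⟩ : ∃ s : ℝ, s = 1 / ((q : ℝ) + 1) := ⟨_, rfl⟩
  rw [← hs]
  have hs0 : 0 < s := by rw [hs]; positivity
  obtain ⟨A, hA⟩ : ∃ A : ℝ, A = (2 / x) ^ s := ⟨_, rfl⟩
  have hA0 : 0 < A := by rw [hA]; positivity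
  rw [← hA]
  obtain ⟨ε1, hε1⟩ : ∃ ε1 : ℝ, ε1 = ε / (2 * A) := ⟨_, rfl⟩
  have hε10 : 0 < ε1 := by rw [hε1]; positivity
  have hε1A : ε1 * A = ε / 2 := by rw [hε1]; field_simp
  -- the parameters
  obtain ⟨L, hL⟩ : ∃ L : ℕ → ℝ, L = fun N : ℕ => logb 2 (N : ℝ) := ⟨_, rfl⟩
  obtain ⟨a, ha⟩ : ∃ a : ℕ → ℝ, a = fun N : ℕ => (L N) ^ (1 / ((q : ℝ) + 2)) := ⟨_, rfl⟩
  obtain ⟨d, hd⟩ : ∃ d : ℕ → ℕ, d = fun N : ℕ => ⌈x * a N⌉₊ := ⟨_, rfl⟩
  obtain ⟨m, hm⟩ : ∃ m : ℕ → ℕ, m = fun N : ℕ => ⌈16 * (d N : ℝ) * ((E * N) ^ (1 / (d N : ℝ))) ^ 2⌉₊ :=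
    ⟨_, rfl⟩
  have hLt : Tendsto L atTop atTop := by
    rw [hL]
    exact (tendsto_logb_atTop (by norm_num)).comp tendsto_natCast_atTop_atTop
  have hat : Tendsto a atTop atTop := by
    rw [ha]
    exact (tendsto_rpow_atTop (by positivity)).comp hLt
  have hgood : ∀ᶠ N in atTop, 1 ≤ a N ∧ 1 ≤ L N ∧ 1 ≤ N ∧ 1 ≤ d N ∧ x * a N ≤ d N ∧
      (d N : ℝ) ≤ x * a N + 1 ∧ 1 ≤ ((E * N : ℝ)) ^ (1 / (d N : ℝ)) := by
    filter_upwards [hat.eventually_ge_atTop 1, hLt.eventually_ge_atTop 1, eventually_ge_atTop 1]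
      with N h1 h2 h3
    have h4 : 0 < x * a N := by positivity
    have h5 : 1 ≤ d N := by
      rw [hd]
      exact Nat.one_le_ceil_iff.2 h4
    have h3r : (1 : ℝ) ≤ N := by exact_mod_cast h3
    refine ⟨h1, h2, h3, h5, ?_, ?_, ?_⟩
    · rw [hd]
      exact Nat.le_ceil _
    · rw [hd]
      exact (Nat.ceil_lt_add_one h4.le).le
    · exact one_le_rpow (by nlinarith) (by positivity)
  have hmt : Tendsto m atTop atTop := by
    have h1 : Tendsto (fun N => x * a N) atTop atTop := hat.const_mul_atTop hx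
    have h2 : Tendsto (fun N => (m N : ℝ)) atTop atTop := by
      refine tendsto_atTop_mono' _ ?_ h1
      filter_upwards [hgood] with N hN
      obtain ⟨h1, h2, h3, h4, h5, h6, h7⟩ := hN
      have h8 : 16 * (d N : ℝ) * ((E * N) ^ (1 / (d N : ℝ))) ^ 2 ≤ (m N : ℝ) := by
        rw [hm]
        exact Nat.le_ceil _
      have h9 : (1 : ℝ) ≤ ((E * N) ^ (1 / (d N : ℝ))) ^ 2 := one_le_pow₀ h7
      have h10 : (1 : ℝ) ≤ d N := by exact_mod_cast h4
      nlinarith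
    exact tendsto_natCast_atTop_iff.1 h2
  have hg1 := hmt.eventually (hg ε1 hε10)
  have hΨ := (lim_aux q (x := x) (s := s) (κ := κ) (c' := c + ε1) (E' := logb 2 E)
    (C1 := logb 2 C0) hx).comp hat
  have hlt : κ * x + (c + ε1) * (2 / x) ^ s < κ * x + c * A + ε := by
    rw [← hA]
    nlinarith
  have hΨ1 := hΨ.eventually (gt_mem_nhds hlt)
  filter_upwards [hgood, hg1, hΨ1] with N hN hgN hΨN
  obtain ⟨h1, h2, h3, h4, h5, h6, h7⟩ := hN
  simp only [Function.comp] at hΨN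
  have h3r : (1 : ℝ) ≤ N := by exact_mod_cast h3
  have h4r : (1 : ℝ) ≤ d N := by exact_mod_cast h4
  have ha0 : 0 < a N := by linarith
  have hmle : 16 * (d N : ℝ) * ((E * N) ^ (1 / (d N : ℝ))) ^ 2 ≤ (m N : ℝ) := by
    rw [hm]
    exact Nat.le_ceil _
  have hR2 : (1 : ℝ) ≤ ((E * N) ^ (1 / (d N : ℝ))) ^ 2 := one_le_pow₀ h7
  have hm1 : (1 : ℝ) ≤ m N := by nlinarith
  have hmup : (m N : ℝ) ≤ 32 * (d N : ℝ) * ((E * N) ^ (1 / (d N : ℝ))) ^ 2 := by
    have h8 : (m N : ℝ) < 16 * (d N : ℝ) * ((E * N) ^ (1 / (d N : ℝ))) ^ 2 + 1 := by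
      rw [hm]
      exact Nat.ceil_lt_add_one (by positivity)
    nlinarith [mul_le_mul h4r hR2 (by norm_num) (by linarith)]
  -- `L = a^(q+2)`
  have hLa : L N = a N * a N ^ (q + 1) := by
    rw [← pow_succ', ha]
    simp only
    rw [← rpow_natCast, ← rpow_mul (by linarith)]
    push_cast
    have : 1 / ((q : ℝ) + 2) * (q + 1 + 1) = 1 := by
      field_simp
      ring
    rw [this, rpow_one]
  -- bound for `log₂ m`
  have hlogm : logb 2 (m N) ≤ 5 + logb 2 (x * a N + 1) +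
      (2 / x) * (logb 2 E / a N + a N ^ (q + 1)) := by
    have e1 : logb 2 (m N) ≤ logb 2 (32 * (d N : ℝ) * ((E * N) ^ (1 / (d N : ℝ))) ^ 2) :=
      logb_le_logb_of_le (by norm_num) (by linarith) hmup
    have hE0 : E ≠ 0 := by linarith
    have hN0 : (N : ℝ) ≠ 0 := by linarith
    have hR0 : ((E * N : ℝ)) ^ (1 / (d N : ℝ)) ≠ 0 := by linarith
    have e2 : logb 2 (32 * (d N : ℝ) * ((E * N) ^ (1 / (d N : ℝ))) ^ 2) =
        5 + logb 2 (d N) + 2 / (d N : ℝ) * (logb 2 E + L N) := by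
      rw [logb_mul (by positivity) (by positivity), logb_mul (by norm_num) (by positivity),
        logb_pow, logb_rpow_eq_mul_logb_of_pos (by positivity), logb_mul hE0 hN0, hL]
      have : logb 2 32 = 5 := by
        rw [show (32 : ℝ) = 2 ^ (5 : ℕ) by norm_num, logb_pow, logb_self_eq_one (by norm_num)]
        norm_num
      rw [this]
      push_cast
      ring
    have e3 : logb 2 (d N) ≤ logb 2 (x * a N + 1) :=
      logb_le_logb_of_le (by norm_num) (by linarith) h6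
    have e4 : 2 / (d N : ℝ) * (logb 2 E + L N) ≤ 2 / (x * a N) * (logb 2 E + L N) := by
      refine mul_le_mul_of_nonneg_right ?_ ?_
      · exact div_le_div_of_nonneg_left (by norm_num) (by positivity) h5
      · have : 0 ≤ logb 2 E := logb_nonneg (by norm_num) hE
        linarith
    have e5 : 2 / (x * a N) * (logb 2 E + L N) = (2 / x) * (logb 2 E / a N + a N ^ (q + 1)) := by
      rw [hLa]
      field_simp
    linarith
  have hlogm0 : 0 ≤ logb 2 (m N) := logb_nonneg (by norm_num) hm1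
  -- the exponent
  have hexp : κ * d N + (c + ε1) * (logb 2 (m N)) ^ s + logb 2 C0 ≤
      (κ * x + c * A + ε) * a N := by
    have hb0 : 0 < a N ^ (q + 1) := by positivity
    have e1 : (logb 2 (m N)) ^ s ≤ a N * ((5 + logb 2 (x * a N + 1) +
        (2 / x) * (logb 2 E / a N + a N ^ (q + 1))) / a N ^ (q + 1)) ^ s := by
      have e2 : a N = (a N ^ (q + 1)) ^ s := by
        rw [← rpow_natCast, ← rpow_mul ha0.le, hs]
        push_cast
        rw [mul_one_div_cancel (by positivity), rpow_one]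
      have hz0 : 0 ≤ 5 + logb 2 (x * a N + 1) +
        (2 / x) * (logb 2 E / a N + a N ^ (q + 1)) := hlogm0.trans hlogm
      rw [div_rpow hz0 hb0.le, ← e2, mul_div_cancel₀ _ ha0.ne']
      exact rpow_le_rpow hlogm0 hlogm hs0.le
    have e3 : (c + ε1) * (logb 2 (m N)) ^ s ≤ (c + ε1) * (a N * ((5 + logb 2 (x * a N + 1) +
        (2 / x) * (logb 2 E / a N + a N ^ (q + 1))) / a N ^ (q + 1)) ^ s) :=
      mul_le_mul_of_nonneg_left e1 (by linarith)
    have e4 : κ * d N ≤ κ * (x * a N + 1) := mul_le_mul_of_nonneg_left h6 hκ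
    have e5 := mul_lt_mul_of_pos_right hΨN ha0
    have e6 : (κ * x + κ / a N + (c + ε1) * ((5 + logb 2 (x * a N + 1) +
      (2 / x) * (logb 2 E / a N + a N ^ (q + 1))) / a N ^ (q + 1)) ^ s + logb 2 C0 / a N) *
        a N = κ * (x * a N + 1) + (c + ε1) * (a N * ((5 + logb 2 (x * a N + 1) +
        (2 / x) * (logb 2 E / a N + a N ^ (q + 1))) / a N ^ (q + 1)) ^ s) + logb 2 C0 := by
      generalize ((5 + logb 2 (x * a N + 1) +
        (2 / x) * (logb 2 E / a N + a N ^ (q + 1))) / a N ^ (q + 1)) ^ s = Z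
      field_simp
    rw [e6] at e5
    linarith
  have hfin := hrec N (d N) (m N) h3 h4 hmle
  refine le_trans ?_ hfin
  have hq : 1 / (((q + 1 : ℕ) : ℝ) + 1) = 1 / ((q : ℝ) + 2) := by
    push_cast
    ring
  rw [hq]
  have haN : (logb 2 (N : ℝ)) ^ (1 / ((q : ℝ) + 2)) = a N := by rw [ha, hL]
  rw [haN]
  have hC0p : (0 : ℝ) < C0 := by linarith
  have hmp : (0 : ℝ) < m N := by linarith
  have k1 : (2 : ℝ) ^ (-(κ * x + c * A + ε) * a N) ≤
      (2 : ℝ) ^ (-(κ * d N) + -(c + ε1) * (logb 2 (m N)) ^ s + -(logb 2 C0)) := by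
    refine rpow_le_rpow_of_exponent_le (by norm_num) ?_
    linarith
  have k2 : (2 : ℝ) ^ (-(κ * d N) + -(c + ε1) * (logb 2 (m N)) ^ s + -(logb 2 C0)) =
      (2 : ℝ) ^ (-(κ * d N)) * (2 : ℝ) ^ (-(c + ε1) * (logb 2 (m N)) ^ s) / C0 := by
    rw [rpow_add (by norm_num), rpow_add (by norm_num), rpow_neg (by norm_num) (logb 2 C0),
      rpow_logb (by norm_num) (by norm_num) hC0p]
    rfl
  rw [← hs] at hgN
  calc (N : ℝ) * (2 : ℝ) ^ (-(κ * x + c * A + ε) * a N)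
      ≤ N * ((2 : ℝ) ^ (-(κ * d N)) * (2 : ℝ) ^ (-(c + ε1) * (logb 2 (m N)) ^ s) / C0) := by
        rw [← k2]
        exact mul_le_mul_of_nonneg_left k1 (by positivity)
    _ = N * (2 : ℝ) ^ (-(κ * d N)) * (m N * (2 : ℝ) ^ (-(c + ε1) * (logb 2 (m N)) ^ s)) /
        (C0 * m N) := by
        field_simp
    _ ≤ N * (2 : ℝ) ^ (-(κ * d N)) * (g (m N)) / (C0 * m N) := by
        refine div_le_div_of_nonneg_right ?_ (by positivity)
        exact mul_le_mul_of_nonneg_left hgN (by positivity)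

theorem HH_base {g : ℕ → ℕ} (hg : ∀ m, 1 ≤ m → 1 ≤ g m) : HH g 0 1 := by
  intro ε hε
  filter_upwards [eventually_ge_atTop 1] with N hN
  have hNr : (1 : ℝ) ≤ N := by exact_mod_cast hN
  have h1 : (1 : ℝ) ≤ g N := by exact_mod_cast hg N hN
  refine le_trans ?_ h1
  rw [Nat.cast_zero, zero_add, div_one, rpow_one]
  have hL : 0 ≤ logb 2 (N : ℝ) := logb_nonneg (by norm_num) hNr
  calc (N : ℝ) * (2 : ℝ) ^ (-(1 + ε) * logb 2 N) ≤ N * (2 : ℝ) ^ (-logb 2 (N : ℝ)) := by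
        refine mul_le_mul_of_nonneg_left (rpow_le_rpow_of_exponent_le (by norm_num) ?_)
          (by positivity)
        nlinarith
    _ = 1 := by
        rw [rpow_neg (by norm_num), rpow_logb (by norm_num) (by norm_num) (by linarith)]
        field_simp

end Vale.Agent.AP4
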