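import Vale.Agent.AP4.Rank5
import Vale.Agent.AP4.Rank6
import Vale.Agent.AP4.Main
import Vale.Agent.AP4.Asym

/-!
# P057: the lower bound for `r_k(N)`, `k ≥ 4`
-/

namespace Vale.Agent.AP4

open Filter Real

theorem RS_le_rAP {k N : ℕ} (hk : 3 ≤ k) : RS k 1 N ≤ rAP k N := by
  classical
  obtain ⟨A, hA1, hA2, hA3⟩ := exists_RS k 1 N (by omega)
  rw [← hA3]
  have hinj : Set.InjOn (fun n : ℤ => (n + 1).toNat) A := by
    intro x hx y hy hxy
    have h1 := hA1 x hx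
    have h2 := hA1 y hy
    simp only at hxy
    omega
  rw [← Finset.card_image_of_injOn hinj]
  refine le_rAP ?_ ?_
  · intro v hv
    rw [Finset.mem_image] at hv
    obtain ⟨n, hn, rfl⟩ := hv
    have h1 := hA1 n hn
    rw [Finset.mem_Icc]
    omega
  · rintro ⟨a, d, hd, hap⟩
    have hmem : ∀ i < k, ((a : ℤ) + i * d - 1) ∈ A := by
      intro i hi
      have h1 := hap i hi
      rw [Finset.mem_image] at h1
      obtain ⟨n, hn, hn2⟩ := h1
      have h2 := hA1 n hn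
      have h3 : n = (a : ℤ) + i * d - 1 := by
        have h4 : ((n + 1).toNat : ℤ) = n + 1 := Int.toNat_of_nonneg (by omega)
        rw [hn2] at h4
        push_cast at h4
        linarith
      rw [← h3]
      exact hn
    have h5 := hA2 (fun i => (a : ℤ) + i * d - 1) hmem (by
      intro i _
      rw [dl_succ, dl_succ, dl_succ, dl_zero]
      push_cast
      ring) 1 (by omega)
    push_cast at h5
    have : (d : ℤ) = 0 := by linarith
    omega

theorem H_box (k : ℕ) : ∀ q j : ℕ, 2 ^ (j + q) + 1 ≤ k →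
    HH (RS k (2 ^ j)) q (((q : ℝ) + 1) * 2 ^ ((q : ℝ) / 2 + j * q / (q + 1))) := by
  intro q
  induction q with
  | zero =>
    intro j hk
    have h := HH_base (g := RS k (2 ^ j)) fun m hm => one_le_RS hm (le_trans (Nat.le_add_left 1 _) hk)
    have e : (((0 : ℕ) : ℝ) + 1) * 2 ^ (((0 : ℕ) : ℝ) / 2 + j * ((0 : ℕ) : ℝ) / (((0 : ℕ) : ℝ) + 1)) =
        1 := by simp
    rw [e]
    exact h
  | succ q ih =>
    intro j hk
    have hk2 : 2 ^ (j + 1 + q) + 1 ≤ k := by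
      rw [show j + 1 + q = j + (q + 1) by ring]
      exact hk
    have h1 := ih (j + 1) hk2
    have hx : (0 : ℝ) < 2 ^ (((q : ℝ) + 1) / 2 - j / (q + 2)) := by positivity
    have hpow : 2 * 2 ^ j + 1 ≤ k := by
      refine le_trans ?_ hk
      have : 2 ^ (j + 1) ≤ 2 ^ (j + (q + 1)) := Nat.pow_le_pow_right (by norm_num) (by omega)
      rw [pow_succ] at this
      omega
    have h2 := H_step (f := RS k (2 ^ j)) (g := RS k (2 ^ (j + 1))) (q := q)
      (c := ((q : ℝ) + 1) * 2 ^ ((q : ℝ) / 2 + ((j + 1 : ℕ) : ℝ) * q / (q + 1)))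
      (κ := 2 ^ j) (C0 := 2 ^ (2 * 2 ^ j + 2)) (E := 2 ^ (2 ^ j + 1))
      (x := 2 ^ (((q : ℝ) + 1) / 2 - j / (q + 2))) (by positivity) (by positivity)
      (one_le_pow₀ (by norm_num)) (one_le_pow₀ (by norm_num)) hx (by
        intro N d m hN hd hm
        have h3 := rec_box (k := k) (D := 2 ^ j) Nat.one_le_two_pow hpow hd hN hm
        have h4 : ((1 : ℝ) / 2 ^ (2 ^ j)) ^ d = 2 ^ (-((2 : ℝ) ^ j * d)) := by
          rw [rpow_neg (by norm_num), rpow_mul (by norm_num), one_div, inv_pow]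
          congr 1
          rw [rpow_natCast]
          congr 1
          rw [← rpow_natCast]
          push_cast
          rfl
        rw [h4, show 2 * 2 ^ j = 2 ^ (j + 1) by ring] at h3
        rw [show 2 * 2 ^ j = 2 ^ (j + 1) by ring]
        exact h3) h1
    have hq0 : (q : ℝ) + 1 ≠ 0 := by positivity
    have hq1 : (q : ℝ) + 2 ≠ 0 := by positivity
    have e1 : (2 : ℝ) ^ j * 2 ^ (((q : ℝ) + 1) / 2 - j / (q + 2)) =
        2 ^ (((q : ℝ) + 1) / 2 + j * (q + 1) / (q + 2)) := by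
      rw [← rpow_natCast, ← rpow_add (by norm_num)]
      congr 1
      field_simp
      ring
    have e2 : ((2 : ℝ) ^ ((q : ℝ) / 2 + ((j + 1 : ℕ) : ℝ) * q / (q + 1))) *
        (2 / 2 ^ (((q : ℝ) + 1) / 2 - j / (q + 2))) ^ (1 / ((q : ℝ) + 1)) =
        2 ^ (((q : ℝ) + 1) / 2 + j * (q + 1) / (q + 2)) := by
      have e3 : (2 : ℝ) / 2 ^ (((q : ℝ) + 1) / 2 - j / (q + 2)) =
          2 ^ (1 - (((q : ℝ) + 1) / 2 - j / (q + 2))) := by
        rw [rpow_sub (by norm_num) 1 (((q : ℝ) + 1) / 2 - j / (q + 2)), rpow_one]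
      rw [e3, ← rpow_mul (by norm_num), ← rpow_add (by norm_num)]
      congr 1
      push_cast
      field_simp
      ring
    have e4 : (2 : ℝ) ^ j * 2 ^ (((q : ℝ) + 1) / 2 - j / (q + 2)) +
        (((q : ℝ) + 1) * 2 ^ ((q : ℝ) / 2 + ((j + 1 : ℕ) : ℝ) * q / (q + 1))) *
          (2 / 2 ^ (((q : ℝ) + 1) / 2 - j / (q + 2))) ^ (1 / ((q : ℝ) + 1)) =
        (((q + 1 : ℕ) : ℝ) + 1) *
          2 ^ (((q + 1 : ℕ) : ℝ) / 2 + j * ((q + 1 : ℕ) : ℝ) / (((q + 1 : ℕ) : ℝ) + 1)) := by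
      rw [mul_assoc, e2, e1]
      push_cast
      rw [show (q : ℝ) + 1 + 1 = q + 2 by ring]
      ring
    rw [e4] at h2
    exact h2

/-- the constant `n 2^{(n-1)/2} (log₂ (9/5))^{1/n}` -/
noncomputable def cst (n : ℕ) : ℝ :=
  n * 2 ^ (((n : ℝ) - 1) / 2) * (logb 2 (9 / 5)) ^ (1 / (n : ℝ))

theorem H_top (k q : ℕ) (h5 : 5 ≤ k) (hk : 2 ^ (q + 1) + 1 ≤ k) :
    HH (RS k 1) (q + 1) (cst (q + 2)) := by
  have hl0 : 0 < logb 2 (9 / 5) := by linarith [lam_pos]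
  obtain ⟨lam, hlam⟩ : ∃ lam : ℝ, lam = logb 2 (9 / 5) := ⟨_, rfl⟩
  rw [← hlam] at hl0
  have h1 := H_box k q 1 (by rw [show 1 + q = q + 1 by ring]; exact hk)
  have hx : (0 : ℝ) < 2 ^ (((q : ℝ) + 1) / 2) * lam ^ (-(((q : ℝ) + 1) / (q + 2))) := by
    positivity
  have h2 := H_step (f := RS k 1) (g := RS k (2 ^ 1)) (q := q)
      (c := ((q : ℝ) + 1) * 2 ^ ((q : ℝ) / 2 + ((1 : ℕ) : ℝ) * q / (q + 1)))
      (κ := lam) (C0 := 32) (E := 2 ^ (1 + 1))
      (x := 2 ^ (((q : ℝ) + 1) / 2) * lam ^ (-(((q : ℝ) + 1) / (q + 2))))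
      (by positivity) hl0.le (by norm_num) (by norm_num) hx (by
        intro N d m hN hd hm
        have h3 := rec_S (k := k) h5 hd hN hm
        have h4 : ((5 : ℝ) / 9) ^ d = 2 ^ (-(lam * d)) := by
          rw [rpow_neg (by norm_num), rpow_mul (by norm_num), hlam,
            rpow_logb (by norm_num) (by norm_num) (by norm_num), rpow_natCast, ← inv_pow]
          norm_num
        rw [h4] at h3
        refine le_trans (le_of_eq ?_) h3
        norm_num
        ring) h1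
  have hq0 : (q : ℝ) + 1 ≠ 0 := by positivity
  have hq1 : (q : ℝ) + 2 ≠ 0 := by positivity
  have e1 : lam * (2 ^ (((q : ℝ) + 1) / 2) * lam ^ (-(((q : ℝ) + 1) / (q + 2)))) =
      2 ^ (((q : ℝ) + 1) / 2) * lam ^ (1 / ((q : ℝ) + 2)) := by
    have e2 : lam * lam ^ (-(((q : ℝ) + 1) / (q + 2))) = lam ^ (1 / ((q : ℝ) + 2)) := by
      nth_rewrite 1 [← rpow_one lam]
      rw [← rpow_add hl0]
      congr 1
      field_simp
      ring
    rw [← e2]
    ring
  have e3 : (2 : ℝ) ^ ((q : ℝ) / 2 + ((1 : ℕ) : ℝ) * q / (q + 1)) *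
      (2 / (2 ^ (((q : ℝ) + 1) / 2) * lam ^ (-(((q : ℝ) + 1) / (q + 2))))) ^
        (1 / ((q : ℝ) + 1)) = 2 ^ (((q : ℝ) + 1) / 2) * lam ^ (1 / ((q : ℝ) + 2)) := by
    have e4 : (2 : ℝ) / (2 ^ (((q : ℝ) + 1) / 2) * lam ^ (-(((q : ℝ) + 1) / (q + 2)))) =
        2 ^ (1 - ((q : ℝ) + 1) / 2) * lam ^ (((q : ℝ) + 1) / (q + 2)) := by
      rw [rpow_neg hl0.le, rpow_sub (by norm_num) 1 (((q : ℝ) + 1) / 2), rpow_one]
      have : lam ^ (((q : ℝ) + 1) / (q + 2)) ≠ 0 := by positivity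
      have : (2 : ℝ) ^ (((q : ℝ) + 1) / 2) ≠ 0 := by positivity
      field_simp
    rw [e4, mul_rpow (by positivity) (by positivity), ← rpow_mul (by norm_num),
      ← rpow_mul hl0.le, ← mul_assoc, ← rpow_add (by norm_num)]
    congr 1
    · congr 1
      push_cast
      field_simp
      ring
    · congr 1
      field_simp
  have e5 : lam * (2 ^ (((q : ℝ) + 1) / 2) * lam ^ (-(((q : ℝ) + 1) / (q + 2)))) +
      ((q : ℝ) + 1) * 2 ^ ((q : ℝ) / 2 + ((1 : ℕ) : ℝ) * q / (q + 1)) *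
      (2 / (2 ^ (((q : ℝ) + 1) / 2) * lam ^ (-(((q : ℝ) + 1) / (q + 2))))) ^
        (1 / ((q : ℝ) + 1)) = cst (q + 2) := by
    rw [mul_assoc ((q : ℝ) + 1), e3, e1, cst, ← hlam]
    push_cast
    rw [show (q : ℝ) + 2 - 1 = q + 1 by ring]
    ring
  rw [e5] at h2
  exact h2

theorem cst_two : cst 2 = 2 * √(2 * logb 2 (9 / 5)) := by
  have hl0 : 0 < logb 2 (9 / 5) := by linarith [lam_pos]
  rw [cst, sqrt_eq_rpow, mul_rpow (by norm_num) hl0.le]
  push_cast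
  norm_num
  ring

theorem main_k (k : ℕ) (hk : 4 ≤ k) (C : ℝ) (hC : cst (Nat.clog 2 k) < C) :
    ∀ᶠ N : ℕ in atTop,
      (N : ℝ) * (2 : ℝ) ^ (-C * (logb 2 N) ^ (1 / (Nat.clog 2 k : ℝ))) ≤ rAP k N := by
  rcases hk.eq_or_lt with rfl | h5
  · have h4 : Nat.clog 2 4 = 2 := by
      rw [show (4 : ℕ) = 2 ^ 2 by norm_num, Nat.clog_pow 2 2 (by norm_num)]
    rw [h4, cst_two] at hC
    have h := asym2 (asym (R := fun N => rAP 4 N) finite_form) C hC
    rw [h4]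
    filter_upwards [h] with N hN
    rw [sqrt_eq_rpow] at hN
    push_cast
    exact hN
  · have hn : 3 ≤ Nat.clog 2 k := by
      have h1 : Nat.clog 2 5 ≤ Nat.clog 2 k := Nat.clog_mono_right 2 h5
      have h2 : 2 < Nat.clog 2 5 := by
        rw [Nat.lt_clog_iff_pow_lt (by norm_num)]
        norm_num
      omega
    obtain ⟨q, hq⟩ : ∃ q, Nat.clog 2 k = q + 2 := ⟨Nat.clog 2 k - 2, by omega⟩
    have hpow : 2 ^ (q + 1) + 1 ≤ k := by
      have h1 : q + 1 < Nat.clog 2 k := by omega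
      rw [Nat.lt_clog_iff_pow_lt (by norm_num)] at h1
      exact h1
    have h := H_top k q h5 hpow (C - cst (q + 2)) (by rw [← hq]; linarith)
    filter_upwards [h] with N hN
    have h3 : ((RS k 1 N : ℕ) : ℝ) ≤ rAP k N := by exact_mod_cast RS_le_rAP (by omega)
    refine le_trans (le_of_eq ?_) (hN.trans h3)
    rw [hq]
    push_cast
    congr 3
    · ring
    · congr 2
      ring

theorem cst_lt (n : ℕ) (hn : 1 ≤ n) : cst n < n * 2 ^ (((n : ℝ) - 1) / 2) := by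
  have hl0 : 0 < logb 2 (9 / 5) := by linarith [lam_pos]
  have h1 : (logb 2 (9 / 5)) ^ (1 / (n : ℝ)) < 1 := by
    refine rpow_lt_one hl0.le lam_lt_one ?_
    have : (0 : ℝ) < n := by exact_mod_cast hn
    positivity
  have hn0 : (0 : ℝ) < n := by exact_mod_cast hn
  rw [cst]
  exact mul_lt_of_lt_one_right (by positivity) h1

end Vale.Agent.AP4
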